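import Mathlib.Analysis.SpecialFunctions.Trigonometric.Basic
import Mathlib.Topology.Order.Compact
import Mathlib.Topology.Order.IntermediateValue

/-!
P052, two free dimensions: the weighted circumscribed hexagon.
-/

namespace Vale.Agent.P052.H25

open Real Set

theorem interval3 {l0 l1 l2 r0 r1 r2 : ℝ} (h0 : l0 ≤ r0) (h1 : l1 ≤ r1) (h2 : l2 ≤ r2)
    (hl : l0 + l1 + l2 ≤ 0) (hr : 0 ≤ r0 + r1 + r2) :
    ∃ c0 c1 c2 : ℝ, c0 + c1 + c2 = 0 ∧ (l0 ≤ c0 ∧ c0 ≤ r0) ∧ (l1 ≤ c1 ∧ c1 ≤ r1) ∧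
      (l2 ≤ c2 ∧ c2 ≤ r2) := by
  have a1 : l0 ≤ max l0 (-(r1 + r2)) := le_max_left _ _
  have a2 : -(r1 + r2) ≤ max l0 (-(r1 + r2)) := le_max_right _ _
  have a3 : max l0 (-(r1 + r2)) ≤ r0 := max_le h0 (by linarith)
  have a4 : max l0 (-(r1 + r2)) ≤ -(l1 + l2) := max_le (by linarith) (by linarith)
  generalize max l0 (-(r1 + r2)) = c0 at a1 a2 a3 a4
  have b1 : l1 ≤ max l1 (-c0 - r2) := le_max_left _ _
  have b2 : -c0 - r2 ≤ max l1 (-c0 - r2) := le_max_right _ _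
  have b3 : max l1 (-c0 - r2) ≤ r1 := max_le h1 (by linarith)
  have b4 : max l1 (-c0 - r2) ≤ -c0 - l2 := max_le (by linarith) (by linarith)
  generalize max l1 (-c0 - r2) = c1 at b1 b2 b3 b4
  exact ⟨c0, c1, -c0 - c1, by ring, ⟨a1, a3⟩, ⟨b1, b3⟩, ⟨by linarith, by linarith⟩⟩

variable {V : Type*} [TopologicalSpace V]

/-- The weighted support function. -/
noncomputable def supp (K : Set V) (q₁ q₂ ρ : V → ℝ) (t φ : ℝ) : ℝ :=
  sSup ((fun x => t * (cos φ * q₁ x + sin φ * q₂ x) - ρ x / 2) '' K)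

section
variable {K : Set V} (hK : IsCompact K) (hne : K.Nonempty) {q₁ q₂ ρ : V → ℝ}
  (h₁ : Continuous q₁) (h₂ : Continuous q₂) (hρ : Continuous ρ) {t : ℝ}

include hK h₁ h₂ hρ

theorem continuous_supp : Continuous (supp K q₁ q₂ ρ t) := by
  unfold supp
  refine hK.continuous_sSup (f := fun φ x => t * (cos φ * q₁ x + sin φ * q₂ x) - ρ x / 2) ?_
  simp only [Function.HasUncurry.uncurry, id]
  have e1 : Continuous fun p : ℝ × V => q₁ p.2 := h₁.comp continuous_snd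
  have e2 : Continuous fun p : ℝ × V => q₂ p.2 := h₂.comp continuous_snd
  have e3 : Continuous fun p : ℝ × V => ρ p.2 := hρ.comp continuous_snd
  have e4 : Continuous fun p : ℝ × V => cos p.1 := continuous_cos.comp continuous_fst
  have e5 : Continuous fun p : ℝ × V => sin p.1 := continuous_sin.comp continuous_fst
  exact (continuous_const.mul ((e4.mul e1).add (e5.mul e2))).sub (e3.div_const 2)

theorem compact_vals (φ : ℝ) :
    IsCompact ((fun x => t * (cos φ * q₁ x + sin φ * q₂ x) - ρ x / 2) '' K) := by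
  refine hK.image ?_
  exact (continuous_const.mul ((continuous_const.mul h₁).add (continuous_const.mul h₂))).sub
    (hρ.div_const 2)

theorem le_supp (φ : ℝ) {x : V} (hx : x ∈ K) :
    t * (cos φ * q₁ x + sin φ * q₂ x) - ρ x / 2 ≤ supp K q₁ q₂ ρ t φ :=
  le_csSup (compact_vals hK h₁ h₂ hρ φ).bddAbove ⟨x, hx, rfl⟩

include hne

theorem exists_supp (φ : ℝ) : ∃ x ∈ K,
    supp K q₁ q₂ ρ t φ = t * (cos φ * q₁ x + sin φ * q₂ x) - ρ x / 2 := by
  obtain ⟨x, hx, h⟩ := (compact_vals (t := t) hK h₁ h₂ hρ φ).sSup_mem (hne.image _)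
  exact ⟨x, hx, h.symm⟩

theorem supp_pi (hpair : ∀ x ∈ K, ∀ y ∈ K, (q₁ x - q₁ y) ^ 2 + (q₂ x - q₂ y) ^ 2 ≤ ρ x + ρ y)
    (φ : ℝ) : supp K q₁ q₂ ρ t φ + supp K q₁ q₂ ρ t (φ + π) ≤ t ^ 2 / 2 := by
  obtain ⟨x, hx, e1⟩ := exists_supp (t := t) hK hne h₁ h₂ hρ φ
  obtain ⟨y, hy, e2⟩ := exists_supp (t := t) hK hne h₁ h₂ hρ (φ + π)
  rw [e1, e2, cos_add_pi, sin_add_pi]
  have h3 := hpair x hx y hy
  have h4 := sin_sq_add_cos_sq φ
  have h5 : (cos φ * (q₁ x - q₁ y) + sin φ * (q₂ x - q₂ y)) ^ 2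
      ≤ (q₁ x - q₁ y) ^ 2 + (q₂ x - q₂ y) ^ 2 := by
    have e : (q₁ x - q₁ y) ^ 2 + (q₂ x - q₂ y) ^ 2
        = (sin φ ^ 2 + cos φ ^ 2) * ((q₁ x - q₁ y) ^ 2 + (q₂ x - q₂ y) ^ 2) := by
      rw [h4, one_mul]
    rw [e]
    have := sq_nonneg (sin φ * (q₁ x - q₁ y) - cos φ * (q₂ x - q₂ y))
    nlinarith
  have h6 := sq_nonneg (t - (cos φ * (q₁ x - q₁ y) + sin φ * (q₂ x - q₂ y)))
  nlinarith

end

theorem supp_two_pi {K : Set V} {q₁ q₂ ρ : V → ℝ} {t : ℝ} (φ : ℝ) :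
    supp K q₁ q₂ ρ t (φ + 2 * π) = supp K q₁ q₂ ρ t φ := by
  unfold supp
  rw [cos_add_two_pi, sin_add_two_pi]

theorem cos_two : cos (2 * π / 3) = -1 / 2 := by
  have : 2 * π / 3 = π - π / 3 := by ring
  rw [this, cos_pi_sub, cos_pi_div_three]; norm_num

theorem sin_two : sin (2 * π / 3) = √3 / 2 := by
  have : 2 * π / 3 = π - π / 3 := by ring
  rw [this, sin_pi_sub, sin_pi_div_three]

theorem cos_four : cos (4 * π / 3) = -1 / 2 := by
  have : 4 * π / 3 = π / 3 + π := by ring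
  rw [this, cos_add_pi, cos_pi_div_three]; norm_num

theorem sin_four : sin (4 * π / 3) = -(√3 / 2) := by
  have : 4 * π / 3 = π / 3 + π := by ring
  rw [this, sin_add_pi, sin_pi_div_three]

/-- **The weighted hexagon.** -/
theorem hexagon {K : Set V} (hK : IsCompact K) (hne : K.Nonempty) {q₁ q₂ ρ : V → ℝ}
    (h₁ : Continuous q₁) (h₂ : Continuous q₂) (hρ : Continuous ρ) {t : ℝ} (ht : 0 < t)
    (hpair : ∀ x ∈ K, ∀ y ∈ K, (q₁ x - q₁ y) ^ 2 + (q₂ x - q₂ y) ^ 2 ≤ ρ x + ρ y) :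
    ∃ p : Fin 3 → V → ℝ, (∀ i, Continuous (p i)) ∧
      (∀ j x, p j x + p (j + 1) x + p (j + 2) x = 0) ∧
      (∀ i, ∀ x ∈ K, |p i x| ≤ ρ x / (2 * t) + t / 4) ∧
      ∀ j x y, (q₁ x - q₁ y) ^ 2 + (q₂ x - q₂ y) ^ 2
        = 4 / 3 * ((p (j + 1) x - p (j + 1) y) ^ 2
          + (p (j + 1) x - p (j + 1) y) * (p (j + 2) x - p (j + 2) y)
          + (p (j + 2) x - p (j + 2) y) ^ 2) := by
  set F : ℝ → ℝ := supp K q₁ q₂ ρ t with hF
  have hFc : Continuous F := continuous_supp hK h₁ h₂ hρ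
  have hFpi : ∀ φ, F φ + F (φ + π) ≤ t ^ 2 / 2 := supp_pi hK hne h₁ h₂ hρ hpair
  have hF2 : ∀ φ, F (φ + 2 * π) = F φ := fun φ => supp_two_pi φ
  set g : ℝ → ℝ := fun θ => F θ + F (θ + 2 * π / 3) + F (θ + 4 * π / 3) with hg
  have hgc : Continuous g := by
    have e1 : Continuous fun θ : ℝ => F (θ + 2 * π / 3) :=
      hFc.comp (continuous_id.add continuous_const)
    have e2 : Continuous fun θ : ℝ => F (θ + 4 * π / 3) :=
      hFc.comp (continuous_id.add continuous_const)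
    exact (hFc.add e1).add e2
  have hgper : ∀ θ, g (θ + 2 * π / 3) = g θ := by
    intro θ
    have e1 : θ + 2 * π / 3 + 2 * π / 3 = θ + 4 * π / 3 := by ring
    have e2 : θ + 2 * π / 3 + 4 * π / 3 = θ + 2 * π := by ring
    simp only [hg]
    rw [e1, e2, hF2]; ring
  have hgsum : ∀ θ, g θ + g (θ + π / 3) ≤ 3 * (t ^ 2 / 2) := by
    intro θ
    have e1 : θ + π / 3 + 2 * π / 3 = θ + π := by ring
    have e2 : θ + π / 3 + 4 * π / 3 = θ + 2 * π / 3 + π := by ring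
    have e3 : θ + 4 * π / 3 = θ + π / 3 + π := by ring
    simp only [hg]
    rw [e1, e2, e3]
    have := hFpi θ
    have := hFpi (θ + 2 * π / 3)
    have := hFpi (θ + π / 3)
    linarith
  obtain ⟨θ, hθ⟩ : ∃ θ, g θ - g (θ + π / 3) = 0 := by
    have hc : Continuous fun θ => g θ - g (θ + π / 3) :=
      hgc.sub (hgc.comp (continuous_id.add continuous_const))
    have e0 : g (0 + π / 3) - g (0 + π / 3 + π / 3) = -(g 0 - g (0 + π / 3)) := by
      have e1 : (0 : ℝ) + π / 3 + π / 3 = 0 + 2 * π / 3 := by ring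
      rw [e1, hgper]; ring
    rcases le_total (g 0 - g (0 + π / 3)) 0 with h | h
    · exact mem_range_of_exists_le_of_exists_ge hc ⟨0, h⟩ ⟨0 + π / 3, by
        change 0 ≤ g (0 + π / 3) - g (0 + π / 3 + π / 3)
        rw [e0]; linarith⟩
    · exact mem_range_of_exists_le_of_exists_ge hc ⟨0 + π / 3, by
        change g (0 + π / 3) - g (0 + π / 3 + π / 3) ≤ 0
        rw [e0]; linarith⟩ ⟨0, h⟩
  have hg1 : g θ ≤ 3 * (t ^ 2 / 4) := by have := hgsum θ; linarith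
  have hg2 : g (θ + π / 3) ≤ 3 * (t ^ 2 / 4) := by have := hgsum θ; linarith
  have e1 : θ + π / 3 + 2 * π / 3 = θ + π := by ring
  have e2 : θ + π / 3 + 4 * π / 3 = θ + 2 * π / 3 + π := by ring
  have e3 : F (θ + 4 * π / 3 + π) = F (θ + π / 3) := by
    have : θ + 4 * π / 3 + π = θ + π / 3 + 2 * π := by ring
    rw [this, hF2]
  simp only [hg] at hg1 hg2
  rw [e1, e2, ← e3] at hg2
  obtain ⟨c0, c1, c2, hc, ⟨l0, r0⟩, ⟨l1, r1⟩, ⟨l2, r2⟩⟩ := interval3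
    (l0 := F θ - t ^ 2 / 4) (r0 := t ^ 2 / 4 - F (θ + π))
    (l1 := F (θ + 2 * π / 3) - t ^ 2 / 4) (r1 := t ^ 2 / 4 - F (θ + 2 * π / 3 + π))
    (l2 := F (θ + 4 * π / 3) - t ^ 2 / 4) (r2 := t ^ 2 / 4 - F (θ + 4 * π / 3 + π))
    (by have := hFpi θ; linarith) (by have := hFpi (θ + 2 * π / 3); linarith)
    (by have := hFpi (θ + 4 * π / 3); linarith) (by linarith) (by linarith)
  -- the bound for one direction
  have key : ∀ φ c : ℝ, F φ - t ^ 2 / 4 ≤ c → c ≤ t ^ 2 / 4 - F (φ + π) → ∀ x ∈ K,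
      |cos φ * q₁ x + sin φ * q₂ x - c / t| ≤ ρ x / (2 * t) + t / 4 := by
    intro φ c hl hr x hx
    have a1 : t * (cos φ * q₁ x + sin φ * q₂ x) - ρ x / 2 ≤ F φ :=
      le_supp hK h₁ h₂ hρ φ hx
    have a2 : t * (cos (φ + π) * q₁ x + sin (φ + π) * q₂ x) - ρ x / 2 ≤ F (φ + π) :=
      le_supp hK h₁ h₂ hρ (φ + π) hx
    rw [cos_add_pi, sin_add_pi] at a2
    have e4 : ρ x / (2 * t) + t / 4 = (ρ x / 2 + t ^ 2 / 4) / t := by field_simp
    have e5 : cos φ * q₁ x + sin φ * q₂ x - c / t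
        = (t * (cos φ * q₁ x + sin φ * q₂ x) - c) / t := by field_simp
    rw [e4, e5, abs_div, abs_of_pos ht]
    refine div_le_div_of_nonneg_right ?_ ht.le
    rw [abs_le]
    constructor <;> linarith
  have hs3 : √3 ^ 2 = 3 := Real.sq_sqrt (by norm_num)
  have hcs := sin_sq_add_cos_sq θ
  have C1 : cos (θ + 2 * π / 3) = -cos θ / 2 - √3 / 2 * sin θ := by
    rw [cos_add, cos_two, sin_two]; ring
  have S1 : sin (θ + 2 * π / 3) = -sin θ / 2 + √3 / 2 * cos θ := by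
    rw [sin_add, cos_two, sin_two]; ring
  have C2 : cos (θ + 4 * π / 3) = -cos θ / 2 + √3 / 2 * sin θ := by
    rw [cos_add, cos_four, sin_four]; ring
  have S2 : sin (θ + 4 * π / 3) = -sin θ / 2 - √3 / 2 * cos θ := by
    rw [sin_add, cos_four, sin_four]; ring
  set P0 : V → ℝ := fun x => cos θ * q₁ x + sin θ * q₂ x - c0 / t with hP0
  set P1 : V → ℝ := fun x => cos (θ + 2 * π / 3) * q₁ x + sin (θ + 2 * π / 3) * q₂ x - c1 / t
    with hP1
  set P2 : V → ℝ := fun x => cos (θ + 4 * π / 3) * q₁ x + sin (θ + 4 * π / 3) * q₂ x - c2 / t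
    with hP2
  have hsum : ∀ x, P0 x + P1 x + P2 x = 0 := by
    intro x
    have hc' : c0 / t + c1 / t + c2 / t = 0 := by rw [← add_div, ← add_div, hc, zero_div]
    simp only [hP0, hP1, hP2]
    rw [C1, S1, C2, S2]
    linear_combination -hc'
  have hid : ∀ x y, (q₁ x - q₁ y) ^ 2 + (q₂ x - q₂ y) ^ 2
      = 4 / 3 * ((P1 x - P1 y) ^ 2 + (P1 x - P1 y) * (P2 x - P2 y) + (P2 x - P2 y) ^ 2) := by
    intro x y
    have d1 : P1 x - P1 y = -(cos θ * (q₁ x - q₁ y) + sin θ * (q₂ x - q₂ y)) / 2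
        + √3 / 2 * (-(sin θ) * (q₁ x - q₁ y) + cos θ * (q₂ x - q₂ y)) := by
      simp only [hP1]; rw [C1, S1]; ring
    have d2 : P2 x - P2 y = -(cos θ * (q₁ x - q₁ y) + sin θ * (q₂ x - q₂ y)) / 2
        - √3 / 2 * (-(sin θ) * (q₁ x - q₁ y) + cos θ * (q₂ x - q₂ y)) := by
      simp only [hP2]; rw [C2, S2]; ring
    rw [d1, d2]
    generalize q₁ x - q₁ y = u
    generalize q₂ x - q₂ y = v
    have e6 : 4 / 3 * ((-(cos θ * u + sin θ * v) / 2 + √3 / 2 * (-(sin θ) * u + cos θ * v)) ^ 2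
        + (-(cos θ * u + sin θ * v) / 2 + √3 / 2 * (-(sin θ) * u + cos θ * v))
          * (-(cos θ * u + sin θ * v) / 2 - √3 / 2 * (-(sin θ) * u + cos θ * v))
        + (-(cos θ * u + sin θ * v) / 2 - √3 / 2 * (-(sin θ) * u + cos θ * v)) ^ 2)
        = (cos θ * u + sin θ * v) ^ 2 + √3 ^ 2 / 3 * (-(sin θ) * u + cos θ * v) ^ 2 := by ring
    rw [e6, hs3]
    have e7 : (cos θ * u + sin θ * v) ^ 2 + 3 / 3 * (-(sin θ) * u + cos θ * v) ^ 2
        = (sin θ ^ 2 + cos θ ^ 2) * (u ^ 2 + v ^ 2) := by ring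
    rw [e7, hcs, one_mul]
  have hid' : ∀ a b c a' b' c' : ℝ, a + b + c = 0 → a' + b' + c' = 0 →
      (b - b') ^ 2 + (b - b') * (c - c') + (c - c') ^ 2
        = (a - a') ^ 2 + (a - a') * (b - b') + (b - b') ^ 2 := by
    intro a b c a' b' c' h h'
    have h3 : c = -a - b := by linarith
    have h4 : c' = -a' - b' := by linarith
    rw [h3, h4]; ring
  refine ⟨![P0, P1, P2], ?_, ?_, ?_, ?_⟩
  · intro i
    fin_cases i
    · exact ((continuous_const.mul h₁).add (continuous_const.mul h₂)).sub continuous_const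
    · exact ((continuous_const.mul h₁).add (continuous_const.mul h₂)).sub continuous_const
    · exact ((continuous_const.mul h₁).add (continuous_const.mul h₂)).sub continuous_const
  · intro j x
    have := hsum x
    fin_cases j
    · change P0 x + P1 x + P2 x = 0; linarith
    · change P1 x + P2 x + P0 x = 0; linarith
    · change P2 x + P0 x + P1 x = 0; linarith
  · intro i x hx
    fin_cases i
    · exact key θ c0 l0 r0 x hx
    · exact key _ c1 l1 r1 x hx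
    · exact key _ c2 l2 r2 x hx
  · intro j x y
    have s1 := hsum x
    have s2 := hsum y
    fin_cases j
    · exact hid x y
    · change _ = 4 / 3 * ((P2 x - P2 y) ^ 2 + (P2 x - P2 y) * (P0 x - P0 y)
        + (P0 x - P0 y) ^ 2)
      rw [hid x y, hid' (P1 x) (P2 x) (P0 x) (P1 y) (P2 y) (P0 y) (by linarith) (by linarith)]
    · change _ = 4 / 3 * ((P0 x - P0 y) ^ 2 + (P0 x - P0 y) * (P1 x - P1 y)
        + (P1 x - P1 y) ^ 2)
      rw [hid x y, hid' (P0 x) (P1 x) (P2 x) (P0 y) (P1 y) (P2 y) (by linarith) (by linarith)]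

end Vale.Agent.P052.H25
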