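import Vale.Agent.P052.H768.Core
import Mathlib.Analysis.Convex.Caratheodory
import Mathlib.Analysis.LocallyConvex.Separation
import Mathlib.LinearAlgebra.AffineSpace.FiniteDimensional

/-!
P052, mirror symmetric sets: Jung's inequality in the span of the mirror normals.
-/

namespace Vale.Agent.P052.H25

open Metric Set Vale.Agent.P052.H768
open scoped RealInnerProductSpace

variable {V : Type*} [NormedAddCommGroup V] [InnerProductSpace ℝ V] [FiniteDimensional ℝ V]

theorem zero_mem_hull {k : ℕ} (b : Fin k → V) (hb : ∀ i, ‖b i‖ = 1) {K : Set V}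
    (hK : IsCompact K) (hinv : ∀ i, ∀ v ∈ K, rf (b i) v ∈ K) {x : V} (hx : x ∈ K) :
    (0 : V) ∈ closure (convexHull ℝ ((Submodule.span ℝ (Set.range b)).starProjection ''
      layer (Submodule.span ℝ (Set.range b)) K x)) := by
  set U := Submodule.span ℝ (Set.range b) with hU
  by_contra h
  obtain ⟨f, u, h1, h2⟩ := geometric_hahn_banach_closed_point
    ((convex_convexHull ℝ (U.starProjection '' layer U K x)).closure) isClosed_closure h
  rw [map_zero] at h2
  set v := (InnerProductSpace.toDual ℝ V).symm f with hv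
  have hf : ∀ a, f a = ⟪v, a⟫ := fun a => by
    rw [hv, InnerProductSpace.toDual_symm_apply]
  obtain ⟨w, hw, hw0⟩ := exists_nonpos b hb (layer_compact U hK x) ⟨x, hx, rfl, rfl⟩
    (fun i v hv => layer_inv b hb hinv x i hv) (ρ := -(U.starProjection v))
    (Submodule.neg_mem _ (sp_mem U v))
  have h3 : f (U.starProjection w) < u :=
    h1 _ (subset_closure (subset_convexHull ℝ _ ⟨w, hw, rfl⟩))
  have h4 : ⟪v, U.starProjection w⟫ = ⟪U.starProjection v, w⟫ := by
    rw [← inner_sp U (sp_mem U v) w, real_inner_comm, real_inner_comm (U.starProjection w),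
      inner_sp U (sp_mem U w) v]
  rw [hf, h4] at h3
  rw [inner_neg_left] at hw0
  linarith

theorem jung {k : ℕ} (b : Fin k → V) (hb : ∀ i, ‖b i‖ = 1) {K : Set V}
    (hK : IsCompact K) (hinv : ∀ i, ∀ v ∈ K, rf (b i) v ∈ K) {D : ℝ}
    (hD : ∀ x ∈ K, ∀ y ∈ K, dist x y ≤ D) {x : V} (hx : x ∈ K) :
    D ^ 2 / (2 * (k + 1)) ≤
      D ^ 2 / 2 - ‖(Submodule.span ℝ (Set.range b)).starProjection x‖ ^ 2 := by
  set U := Submodule.span ℝ (Set.range b) with hU
  set r : ℝ := ‖U.starProjection x‖ with hr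
  have hr0 : 0 ≤ r := norm_nonneg _
  refine le_of_forall_pos_le_add fun ε hε => ?_
  have hε' : 0 < ε / (r + 1) := by positivity
  obtain ⟨p, hp, hp0⟩ := Metric.mem_closure_iff.1 (zero_mem_hull b hb hK hinv hx) _ hε'
  rw [dist_zero_left] at hp0
  obtain ⟨ι, hι, z, w, hz, haff, hw, hw1, hsum⟩ := eq_pos_convex_span_of_mem_convexHull hp
  have hcard : Fintype.card ι ≤ k + 1 := by
    have h1 := haff.card_le_finrank_succ
    have h2 : vectorSpan ℝ (Set.range z) ≤ U := by
      rw [vectorSpan_def, Submodule.span_le]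
      rintro _ ⟨a, ha, c, hc, rfl⟩
      obtain ⟨a', -, rfl⟩ := hz ha
      obtain ⟨c', -, rfl⟩ := hz hc
      exact Submodule.sub_mem _ (sp_mem U _) (sp_mem U _)
    have h3 : Module.finrank ℝ U ≤ k := by
      have := finrank_range_le_card (R := ℝ) b
      rwa [Fintype.card_fin] at this
    have h4 := Submodule.finrank_mono h2
    omega
  have hne : Nonempty ι := by
    by_contra hcon
    rw [not_nonempty_iff] at hcon
    simp at hw1
  obtain ⟨i, hi⟩ : ∃ i, 1 / ((k : ℝ) + 1) ≤ w i := by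
    by_contra hcon
    push Not at hcon
    have h1 : ∑ i, w i < ∑ _i : ι, 1 / ((k : ℝ) + 1) :=
      Finset.sum_lt_sum_of_nonempty Finset.univ_nonempty fun i _ => hcon i
    rw [hw1, Finset.sum_const, Finset.card_univ, nsmul_eq_mul] at h1
    have h2 : (Fintype.card ι : ℝ) ≤ (k : ℝ) + 1 := by exact_mod_cast hcard
    have h3 : (Fintype.card ι : ℝ) * (1 / ((k : ℝ) + 1)) ≤ 1 := by
      rw [mul_one_div, div_le_one (by positivity)]
      exact h2
    linarith
  have hzM : ∀ j, ∃ v ∈ layer U K x, U.starProjection v = z j := fun j => by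
    obtain ⟨v, hv, h⟩ := hz ⟨j, rfl⟩
    exact ⟨v, hv, h⟩
  have hzn : ∀ j, ‖z j‖ = r := fun j => by
    obtain ⟨v, hv, h⟩ := hzM j
    rw [← h, hv.2.2]
  have hpair : ∀ j, r ^ 2 - D ^ 2 / 2 ≤ ⟪z i, z j⟫ := by
    intro j
    obtain ⟨v, hv, h⟩ := hzM i
    obtain ⟨v', hv', h'⟩ := hzM j
    have e1 := norm_sq_split_sub U v v'
    rw [hv.2.1, hv'.2.1, hv.2.2, hv'.2.2, sub_self, norm_zero, h, h'] at e1
    have h2 : ‖v - v'‖ ≤ D := by rw [← dist_eq_norm]; exact hD v hv.1 v' hv'.1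
    have h3 : ‖v - v'‖ ^ 2 ≤ D ^ 2 := pow_le_pow_left₀ (norm_nonneg _) h2 2
    rw [← hr] at e1
    linarith
  have h5 : ⟪z i, p⟫ = ∑ j, w j * ⟪z i, z j⟫ := by
    rw [← hsum, inner_sum]
    exact Finset.sum_congr rfl fun j _ => inner_smul_right _ _ _
  classical
  have h6 : (r ^ 2 - D ^ 2 / 2) + w i * (D ^ 2 / 2) ≤ ⟪z i, p⟫ := by
    have h7 : ∑ j, w j * ((r ^ 2 - D ^ 2 / 2) + if j = i then D ^ 2 / 2 else 0)
        ≤ ∑ j, w j * ⟪z i, z j⟫ := by
      refine Finset.sum_le_sum fun j _ => mul_le_mul_of_nonneg_left ?_ (hw j).le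
      by_cases hj : j = i
      · rw [if_pos hj, hj, real_inner_self_eq_norm_sq, hzn]; linarith
      · rw [if_neg hj, add_zero]; exact hpair j
    rw [← h5] at h7
    refine le_trans (le_of_eq ?_) h7
    simp only [mul_add, Finset.sum_add_distrib, mul_ite, mul_zero, Finset.sum_ite_eq',
      Finset.mem_univ, if_true]
    rw [← Finset.sum_mul, hw1, one_mul]
  have h8 : ⟪z i, p⟫ ≤ ε := by
    have h9 := real_inner_le_norm (z i) p
    rw [hzn] at h9
    have h10 : r * ‖p‖ ≤ r * (ε / (r + 1)) := mul_le_mul_of_nonneg_left hp0.le hr0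
    have h11 : r * (ε / (r + 1)) ≤ ε := by
      rw [mul_div_assoc', div_le_iff₀ (by positivity)]
      nlinarith
    linarith
  have h12 : 1 / ((k : ℝ) + 1) * (D ^ 2 / 2) ≤ w i * (D ^ 2 / 2) :=
    mul_le_mul_of_nonneg_right hi (by positivity)
  have h13 : D ^ 2 / (2 * (k + 1)) = 1 / ((k : ℝ) + 1) * (D ^ 2 / 2) := by
    field_simp
  rw [h13]
  linarith

end Vale.Agent.P052.H25
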