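import Vale.Agent.P052.H768.Mirror
import Mathlib.Analysis.Convex.Caratheodory
import Mathlib.Analysis.LocallyConvex.Separation
import Mathlib.LinearAlgebra.AffineSpace.FiniteDimensional

/-!
P052, mirror symmetric sets: Jung's pair for one block of mirrors.
-/

namespace Vale.Agent.P052.H25

open Metric Set Vale.Agent.P052.H768
open scoped RealInnerProductSpace

variable {V : Type*} [NormedAddCommGroup V] [InnerProductSpace ℝ V] [FiniteDimensional ℝ V]

theorem zero_mem_hull' {n : ℕ} (b : Fin n → V) (hb : ∀ i, ‖b i‖ = 1) {M : Set V}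
    (hM : IsCompact M) (hne : M.Nonempty)
    (hMU : ∀ e ∈ M, e ∈ Submodule.span ℝ (Set.range b))
    (hinv : ∀ i, ∀ e ∈ M, rf (b i) e ∈ M) : (0 : V) ∈ closure (convexHull ℝ M) := by
  set U := Submodule.span ℝ (Set.range b) with hU
  by_contra h
  obtain ⟨f, u, h1, h2⟩ := geometric_hahn_banach_closed_point
    ((convex_convexHull ℝ M).closure) isClosed_closure h
  rw [map_zero] at h2
  set v := (InnerProductSpace.toDual ℝ V).symm f with hv
  have hf : ∀ a, f a = ⟪v, a⟫ := fun a => by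
    rw [hv, InnerProductSpace.toDual_symm_apply]
  have hsp : ∀ a ∈ U, ⟪v, a⟫ = ⟪U.starProjection v, a⟫ := by
    intro a ha
    have h3 := Submodule.starProjection_inner_eq_zero (K := U) v a ha
    rw [inner_sub_left] at h3
    linarith
  obtain ⟨w, hw, hw0⟩ := exists_nonpos b hb hM hne hinv (ρ := -(U.starProjection v))
    (Submodule.neg_mem _ (Submodule.starProjection_apply_mem U v))
  have h3 : f w < u := h1 _ (subset_closure (subset_convexHull ℝ _ hw))
  rw [hf, hsp w (hMU w hw)] at h3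
  rw [inner_neg_left] at hw0
  linarith

theorem jung_pair' {n : ℕ} (hn : 1 ≤ n) (b : Fin n → V) (hb : ∀ i, ‖b i‖ = 1) {M : Set V}
    (hM : IsCompact M) (hne : M.Nonempty)
    (hMU : ∀ e ∈ M, e ∈ Submodule.span ℝ (Set.range b)) {r : ℝ} (hr : ∀ e ∈ M, ‖e‖ = r)
    (hinv : ∀ i, ∀ e ∈ M, rf (b i) e ∈ M) :
    ∃ e ∈ M, ∃ e' ∈ M, ⟪e, e'⟫ ≤ -(r ^ 2) / n := by
  obtain ⟨e₀, he₀⟩ := hne
  have hr0 : 0 ≤ r := by rw [← hr e₀ he₀]; exact norm_nonneg _
  obtain ⟨q, hq, hmin⟩ := (hM.prod hM).exists_isMinOn ⟨(e₀, e₀), ⟨he₀, he₀⟩⟩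
    ((by fun_prop : Continuous fun p : V × V => ⟪p.1, p.2⟫).continuousOn)
  have hm : ∀ e ∈ M, ∀ e' ∈ M, ⟪q.1, q.2⟫ ≤ ⟪e, e'⟫ := fun e he e' he' =>
    hmin (show (e, e') ∈ M ×ˢ M from ⟨he, he'⟩)
  set m : ℝ := ⟪q.1, q.2⟫ with hmdef
  have hmr : m ≤ r ^ 2 := by
    have := hm e₀ he₀ e₀ he₀
    rwa [real_inner_self_eq_norm_sq, hr e₀ he₀] at this
  refine ⟨q.1, hq.1, q.2, hq.2, le_of_forall_pos_le_add fun ε hε => ?_⟩
  have hn0 : (0 : ℝ) < n := by exact_mod_cast hn
  set δ : ℝ := ε * n / (n + 1) with hδ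
  have hδ0 : 0 < δ := by positivity
  have hε' : 0 < δ / (r + 1) := by positivity
  obtain ⟨p, hp, hp0⟩ := Metric.mem_closure_iff.1
    (zero_mem_hull' b hb hM ⟨e₀, he₀⟩ hMU hinv) _ hε'
  rw [dist_zero_left] at hp0
  obtain ⟨ι, hι, z, w, hz, haff, hw, hw1, hsum⟩ := eq_pos_convex_span_of_mem_convexHull hp
  have hcard : Fintype.card ι ≤ n + 1 := by
    have h1 := haff.card_le_finrank_succ
    have h2 : vectorSpan ℝ (Set.range z) ≤ Submodule.span ℝ (Set.range b) := by
      rw [vectorSpan_def, Submodule.span_le]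
      rintro _ ⟨a, ha, c, hc, rfl⟩
      exact Submodule.sub_mem _ (hMU _ (hz ha)) (hMU _ (hz hc))
    have h3 : Module.finrank ℝ (Submodule.span ℝ (Set.range b)) ≤ n := by
      have := finrank_range_le_card (R := ℝ) b
      rwa [Fintype.card_fin] at this
    have h4 := Submodule.finrank_mono h2
    omega
  have hne' : Nonempty ι := by
    by_contra hcon
    rw [not_nonempty_iff] at hcon
    simp at hw1
  obtain ⟨i, hi⟩ : ∃ i, 1 / ((n : ℝ) + 1) ≤ w i := by
    by_contra hcon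
    push Not at hcon
    have h1 : ∑ i, w i < ∑ _i : ι, 1 / ((n : ℝ) + 1) :=
      Finset.sum_lt_sum_of_nonempty Finset.univ_nonempty fun i _ => hcon i
    rw [hw1, Finset.sum_const, Finset.card_univ, nsmul_eq_mul] at h1
    have h2 : (Fintype.card ι : ℝ) ≤ (n : ℝ) + 1 := by exact_mod_cast hcard
    have h3 : (Fintype.card ι : ℝ) * (1 / ((n : ℝ) + 1)) ≤ 1 := by
      rw [mul_one_div, div_le_one (by positivity)]
      exact h2
    linarith
  have hzM : ∀ j, z j ∈ M := fun j => hz ⟨j, rfl⟩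
  have h5 : ⟪z i, p⟫ = ∑ j, w j * ⟪z i, z j⟫ := by
    rw [← hsum, inner_sum]
    exact Finset.sum_congr rfl fun j _ => inner_smul_right _ _ _
  classical
  have h6 : m + w i * (r ^ 2 - m) ≤ ⟪z i, p⟫ := by
    have h7 : ∑ j, w j * (m + if j = i then r ^ 2 - m else 0)
        ≤ ∑ j, w j * ⟪z i, z j⟫ := by
      refine Finset.sum_le_sum fun j _ => mul_le_mul_of_nonneg_left ?_ (hw j).le
      by_cases hj : j = i
      · rw [if_pos hj, hj, real_inner_self_eq_norm_sq, hr _ (hzM i)]; linarith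
      · rw [if_neg hj, add_zero]; exact hm _ (hzM i) _ (hzM j)
    rw [← h5] at h7
    refine le_trans (le_of_eq ?_) h7
    simp only [mul_add, Finset.sum_add_distrib, mul_ite, mul_zero, Finset.sum_ite_eq',
      Finset.mem_univ, if_true]
    rw [← Finset.sum_mul, hw1, one_mul]
  have h8 : ⟪z i, p⟫ ≤ δ := by
    have h9 := real_inner_le_norm (z i) p
    rw [hr _ (hzM i)] at h9
    have h10 : r * ‖p‖ ≤ r * (δ / (r + 1)) := mul_le_mul_of_nonneg_left hp0.le hr0
    have h11 : r * (δ / (r + 1)) ≤ δ := by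
      rw [mul_div_assoc', div_le_iff₀ (by positivity)]
      nlinarith
    linarith
  have h12 : 1 / ((n : ℝ) + 1) * (r ^ 2 - m) ≤ w i * (r ^ 2 - m) :=
    mul_le_mul_of_nonneg_right hi (by linarith)
  have h13 : m + 1 / ((n : ℝ) + 1) * (r ^ 2 - m) ≤ ε * n / (n + 1) := by linarith
  have h14 : m * (n + 1) + (r ^ 2 - m) ≤ ε * n := by
    have e1 : m + 1 / ((n : ℝ) + 1) * (r ^ 2 - m) = (m * (n + 1) + (r ^ 2 - m)) / (n + 1) := by
      field_simp
    rw [e1] at h13
    exact (div_le_div_iff_of_pos_right (by positivity)).1 h13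
  rw [show -(r ^ 2) / (n : ℝ) + ε = (ε * n - r ^ 2) / n by field_simp; ring,
    le_div_iff₀ hn0]
  linarith

/-- **Jung's pair for one block**: a compact set on a sphere of the span of the block, stable
under the reflections of the block, has two points with inner product at most `-r² / card`. -/
theorem jung_pair {k : ℕ} (b : Fin k → V) (s : Finset (Fin k)) (hs : s.Nonempty)
    (hb : ∀ i ∈ s, ‖b i‖ = 1) {M : Set V} (hM : IsCompact M) (hne : M.Nonempty)
    (hMU : ∀ e ∈ M, e ∈ Submodule.span ℝ (b '' (s : Set (Fin k)))) {r : ℝ}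
    (hr : ∀ e ∈ M, ‖e‖ = r) (hinv : ∀ i ∈ s, ∀ e ∈ M, rf (b i) e ∈ M) :
    ∃ e ∈ M, ∃ e' ∈ M, ⟪e, e'⟫ ≤ -(r ^ 2) / s.card := by
  have hrange : Set.range (fun i : Fin s.card => b (s.equivFin.symm i)) = b '' (s : Set (Fin k)) := by
    ext v
    constructor
    · rintro ⟨i, rfl⟩
      exact ⟨_, (s.equivFin.symm i).2, rfl⟩
    · rintro ⟨j, hj, rfl⟩
      exact ⟨s.equivFin ⟨j, hj⟩, by simp⟩
  refine jung_pair' (Finset.card_pos.2 hs) (fun i : Fin s.card => b (s.equivFin.symm i))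
    (fun i => hb _ (s.equivFin.symm i).2) hM hne ?_ hr
    (fun i e he => hinv _ (s.equivFin.symm i).2 e he)
  rw [hrange]
  exact hMU

end Vale.Agent.P052.H25
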