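import Mathlib

/-!
P052, mirror symmetry: the inequality of the average, without averages.

`K` is a compact set of a finite dimensional real inner product space, stable under the
reflections `x ↦ x - 2 ⟪b j, x⟫ b j` (unit vectors `b j`); `U = span b`.
For all `x y` of `K`: `‖Qx‖² + ‖Qy‖² + ‖(x - Qx) - (y - Qy)‖² ≤ D²`, and `2 ‖Qx‖² < D²`,
where `Q` is the orthogonal projection on `U` and `D` bounds the distances in `K`.
-/

namespace Vale.Agent.P052.H25

open scoped InnerProductSpace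

variable {E : Type*} [NormedAddCommGroup E] [InnerProductSpace ℝ E] [FiniteDimensional ℝ E]

/-- The reflection in the hyperplane orthogonal to the unit vector `a`. -/
noncomputable def refl (a x : E) : E := x - (2 * ⟪a, x⟫_ℝ) • a

/-- The span of the normals. -/
def sp {ι : Type*} (b : ι → E) : Submodule ℝ E := Submodule.span ℝ (Set.range b)

theorem mem_sp {ι : Type*} (b : ι → E) (j : ι) : b j ∈ sp b :=
  Submodule.subset_span ⟨j, rfl⟩

theorem inner_refl {a : E} (v x : E) :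
    ⟪v, refl a x⟫_ℝ = ⟪v, x⟫_ℝ - 2 * ⟪a, x⟫_ℝ * ⟪v, a⟫_ℝ := by
  unfold refl
  rw [inner_sub_right, inner_smul_right]

theorem norm_refl {a : E} (ha : ‖a‖ = 1) (x : E) : ‖refl a x‖ = ‖x‖ := by
  have h : ‖refl a x‖ ^ 2 = ‖x‖ ^ 2 := by
    unfold refl
    rw [norm_sub_sq_real, inner_smul_right, norm_smul, ha, real_inner_comm a x]
    rw [mul_one, Real.norm_eq_abs, sq_abs]
    ring
  exact (pow_left_inj₀ (norm_nonneg _) (norm_nonneg _) two_ne_zero).1 h

theorem refl_sub_mem {ι : Type*} (b : ι → E) (j : ι) (x : E) : refl (b j) x - x ∈ sp b := by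
  have : refl (b j) x - x = (-(2 * ⟪b j, x⟫_ℝ)) • b j := by
    unfold refl
    rw [neg_smul]; abel
  rw [this]
  exact Submodule.smul_mem _ _ (mem_sp b j)

/-- The fibre of `x`: the points of `K` with the same component outside `U` and the same norm. -/
def fib {ι : Type*} (b : ι → E) (K : Set E) (x : E) : Set E :=
  {y | y ∈ K ∧ y - x ∈ sp b ∧ ‖y‖ = ‖x‖}

theorem self_mem_fib {ι : Type*} {b : ι → E} {K : Set E} {x : E} (hx : x ∈ K) :
    x ∈ fib b K x := ⟨hx, by rw [sub_self]; exact Submodule.zero_mem _, rfl⟩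

theorem isCompact_fib {ι : Type*} {b : ι → E} {K : Set E} (hK : IsCompact K) (x : E) :
    IsCompact (fib b K x) := by
  have h1 : IsClosed {y : E | y - x ∈ sp b} := by
    have hc : IsClosed ((sp b : Submodule ℝ E) : Set E) := Submodule.closed_of_finiteDimensional _
    exact hc.preimage (continuous_id.sub continuous_const)
  have h2 : IsClosed {y : E | ‖y‖ = ‖x‖} := isClosed_eq continuous_norm continuous_const
  have : fib b K x = K ∩ ({y : E | y - x ∈ sp b} ∩ {y : E | ‖y‖ = ‖x‖}) := rfl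
  rw [this]
  exact hK.inter_right (h1.inter h2)

theorem refl_mem_fib {ι : Type*} {b : ι → E} (hb : ∀ j, ‖b j‖ = 1) {K : Set E}
    (hs : ∀ j, ∀ x ∈ K, refl (b j) x ∈ K) {x y : E} (hy : y ∈ fib b K x) (j : ι) :
    refl (b j) y ∈ fib b K x := by
  obtain ⟨h1, h2, h3⟩ := hy
  refine ⟨hs j y h1, ?_, by rw [norm_refl (hb j), h3]⟩
  have : refl (b j) y - x = (refl (b j) y - y) + (y - x) := by abel
  rw [this]
  exact Submodule.add_mem _ (refl_sub_mem b j y) h2

/-- No vector has a positive lower bound of its inner products with a nonempty set stable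
under the reflections, if it lies in the span of the normals. -/
theorem no_pos {ι : Type*} {b : ι → E} (hb : ∀ j, ‖b j‖ = 1) {F : Set E}
    (hs : ∀ j, ∀ x ∈ F, refl (b j) x ∈ F) (hne : F.Nonempty) {v : E} (hv : v ∈ sp b)
    {c : ℝ} (hc : 0 < c) (h : ∀ y ∈ F, c ≤ ⟪v, y⟫_ℝ) : False := by
  set A : Set E := {w | w ∈ sp b ∧ ∀ y ∈ F, c ≤ ⟪w, y⟫_ℝ} with hA
  have hAc : IsClosed A := by
    have h1 : IsClosed ((sp b : Submodule ℝ E) : Set E) := Submodule.closed_of_finiteDimensional _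
    have h2 : IsClosed {w : E | ∀ y ∈ F, c ≤ ⟪w, y⟫_ℝ} := by
      have : {w : E | ∀ y ∈ F, c ≤ ⟪w, y⟫_ℝ} = ⋂ y ∈ F, {w : E | c ≤ ⟪w, y⟫_ℝ} := by
        ext w; simp
      rw [this]
      refine isClosed_biInter fun y _ => ?_
      exact isClosed_le continuous_const (continuous_id.inner continuous_const)
    exact h1.inter h2
  have hAne : A.Nonempty := ⟨v, hv, h⟩
  obtain ⟨w, hwA, hw⟩ := hAc.exists_infDist_eq_dist hAne (0 : E)
  have hmin : ∀ w' ∈ A, ‖w‖ ≤ ‖w'‖ := by
    intro w' hw'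
    have := Metric.infDist_le_dist_of_mem (x := (0 : E)) hw'
    rw [hw, dist_zero_left, dist_zero_left] at this
    exact this
  have hperp : ∀ j, ⟪b j, w⟫_ℝ = 0 := by
    intro j
    set t := ⟪b j, w⟫_ℝ with ht
    have hw' : w - t • b j ∈ A := by
      refine ⟨Submodule.sub_mem _ hwA.1 (Submodule.smul_mem _ _ (mem_sp b j)), fun y hy => ?_⟩
      have e1 := hwA.2 y hy
      have e2 := hwA.2 _ (hs j y hy)
      rw [inner_refl, real_inner_comm (b j) w, ← ht] at e2
      rw [inner_sub_left, real_inner_smul_left]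
      nlinarith
    have h1 := hmin _ hw'
    have h2 : ‖w - t • b j‖ ^ 2 = ‖w‖ ^ 2 - t ^ 2 := by
      rw [norm_sub_sq_real, inner_smul_right, norm_smul, hb j, real_inner_comm (b j) w, ← ht,
        mul_one, Real.norm_eq_abs, sq_abs]
      ring
    have h3 : ‖w‖ ^ 2 ≤ ‖w - t • b j‖ ^ 2 := by
      exact pow_le_pow_left₀ (norm_nonneg _) h1 2
    have : t ^ 2 ≤ 0 := by linarith
    exact pow_eq_zero_iff two_ne_zero |>.1 (le_antisymm this (sq_nonneg t))
  have hw0 : w = 0 := by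
    have hall : ∀ u ∈ sp b, ⟪u, w⟫_ℝ = 0 := by
      intro u hu
      induction hu using Submodule.span_induction with
      | mem x hx => obtain ⟨j, rfl⟩ := hx; exact hperp j
      | zero => exact inner_zero_left _
      | add x y _ _ hx hy => rw [inner_add_left, hx, hy, add_zero]
      | smul a x _ hx => rw [real_inner_smul_left, hx, mul_zero]
    exact inner_self_eq_zero.1 (hall w hwA.1)
  obtain ⟨y, hy⟩ := hne
  have := hwA.2 y hy
  rw [hw0, inner_zero_left] at this
  linarith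

/-- For `v` in the span of the normals some point of the fibre of `y` makes an angle at least
`90` degrees with `v`. -/
theorem noavg {ι : Type*} {b : ι → E} (hb : ∀ j, ‖b j‖ = 1) {K : Set E} (hK : IsCompact K)
    (hs : ∀ j, ∀ x ∈ K, refl (b j) x ∈ K) {v : E} (hv : v ∈ sp b) {y : E} (hy : y ∈ K) :
    ∃ y' ∈ fib b K y, ⟪v, y'⟫_ℝ ≤ 0 := by
  by_contra hcon
  push Not at hcon
  obtain ⟨y₀, hy₀, hmin⟩ := (isCompact_fib (b := b) hK y).exists_isMinOn ⟨y, self_mem_fib hy⟩
    (f := fun y' => ⟪v, y'⟫_ℝ) (continuous_const.inner continuous_id).continuousOn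
  exact no_pos hb (F := fib b K y) (fun j x hx => refl_mem_fib hb hs hx j)
    ⟨y, self_mem_fib hy⟩ hv (hcon y₀ hy₀) (fun z hz => hmin hz)

/-- Strict form: if the projection of `x` on the span of the normals is not zero, two points of
the fibre of `x` have projections with negative inner product. -/
theorem noavg_strict {ι : Type*} {b : ι → E} (hb : ∀ j, ‖b j‖ = 1) {K : Set E}
    (hK : IsCompact K) (hs : ∀ j, ∀ x ∈ K, refl (b j) x ∈ K) {x : E} (hx : x ∈ K)
    (hQ : (sp b).starProjection x ≠ 0) :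
    ∃ x₁ ∈ fib b K x, ∃ x₂ ∈ fib b K x, ⟪(sp b).starProjection x₁, x₂⟫_ℝ < 0 := by
  by_contra hcon
  push Not at hcon
  set Q : E →L[ℝ] E := (sp b).starProjection with hQdef
  set F := fib b K x with hF
  -- the norm of the projection is constant on the fibre
  have hnorm : ∀ x' ∈ F, ⟪Q x', x'⟫_ℝ = ‖Q x‖ ^ 2 := by
    intro x' hx'
    have h1 : ⟪Q x', x'⟫_ℝ = ‖Q x'‖ ^ 2 := by
      have := Submodule.starProjection_inner_eq_zero (K := sp b) x' (Q x')
        (Submodule.starProjection_apply_mem _ _)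
      rw [inner_sub_left, real_inner_self_eq_norm_sq] at this
      rw [real_inner_comm]; linarith
    have h2 : x' - Q x' = x - Q x := by
      have e : Q (x' - x) = x' - x := Submodule.starProjection_eq_self_iff.2 hx'.2.1
      rw [map_sub] at e
      have := congrArg (fun z => x' - x - z) e
      simp only [sub_self] at this
      have h3 : x' - Q x' - (x - Q x) = x' - x - (Q x' - Q x) := by abel
      exact sub_eq_zero.1 (h3.trans this)
    have h4 : ∀ z : E, ‖z‖ ^ 2 = ‖Q z‖ ^ 2 + ‖z - Q z‖ ^ 2 := by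
      intro z
      have := Submodule.starProjection_inner_eq_zero (K := sp b) z (Q z)
        (Submodule.starProjection_apply_mem _ _)
      have e : z = Q z + (z - Q z) := by abel
      have e2 := norm_add_sq_real (Q z) (z - Q z)
      rw [real_inner_comm, this] at e2
      rw [← e] at e2
      linarith
    have h5 := h4 x'
    have h6 := h4 x
    rw [h2, hx'.2.2] at h5
    rw [h1]; linarith
  have hr : 0 < ‖Q x‖ := norm_pos_iff.2 hQ
  obtain ⟨t, htF, hfin, hcov⟩ := (isCompact_fib (b := b) hK x).finite_cover_balls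
    (show 0 < ‖Q x‖ / 2 by positivity)
  have hfin' := hfin
  set T := hfin'.toFinset with hT
  set v : E := ∑ z ∈ T, Q z with hv
  have hvU : v ∈ sp b := Submodule.sum_mem _ fun z _ => Submodule.starProjection_apply_mem _ _
  refine no_pos hb (F := F) (fun j x hx => refl_mem_fib hb hs hx j) ⟨x, self_mem_fib hx⟩ hvU
    (c := ‖Q x‖ ^ 2 / 2) (by positivity) ?_
  intro y hy
  have hy' := hcov hy
  rw [Set.mem_iUnion₂] at hy'
  obtain ⟨z, hz, hyz⟩ := hy'
  have hzT : z ∈ T := hfin'.mem_toFinset.2 hz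
  have hle : ⟪Q z, y⟫_ℝ ≤ ⟪v, y⟫_ℝ := by
    rw [hv, sum_inner]
    exact Finset.single_le_sum (f := fun z => ⟪Q z, y⟫_ℝ)
      (fun i hi => hcon i (htF (hfin'.mem_toFinset.1 hi)) y hy) hzT
  have hzF : z ∈ F := htF hz
  have e1 := hnorm z hzF
  have e2 : ⟪Q z, y⟫_ℝ = ⟪Q z, z⟫_ℝ + ⟪Q z, y - z⟫_ℝ := by rw [← inner_add_right]; congr 1; abel
  have e3 : |⟪Q z, y - z⟫_ℝ| ≤ ‖Q z‖ * ‖y - z‖ := abs_real_inner_le_norm _ _
  have e4 : ‖Q z‖ = ‖Q x‖ := by
    have h1 : ⟪Q z, z⟫_ℝ = ‖Q z‖ ^ 2 := by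
      have := Submodule.starProjection_inner_eq_zero (K := sp b) z (Q z)
        (Submodule.starProjection_apply_mem _ _)
      rw [inner_sub_left, real_inner_self_eq_norm_sq] at this
      rw [real_inner_comm]; linarith
    exact (pow_left_inj₀ (norm_nonneg _) (norm_nonneg _) two_ne_zero).1 (h1.symm.trans e1)
  have e5 : ‖y - z‖ ≤ ‖Q x‖ / 2 := by
    rw [Metric.mem_ball, dist_eq_norm] at hyz
    exact hyz.le
  have e6 : ‖Q z‖ * ‖y - z‖ ≤ ‖Q x‖ * (‖Q x‖ / 2) := by
    rw [e4]; exact mul_le_mul_of_nonneg_left e5 (norm_nonneg _)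
  have e7 := (abs_le.1 (e3.trans e6)).1
  nlinarith

/-- Orthogonal decomposition of a squared distance. -/
theorem norm_sub_sq_split {U : Submodule ℝ E} (x y : E) :
    ‖x - y‖ ^ 2 = ‖U.starProjection x‖ ^ 2 + ‖U.starProjection y‖ ^ 2
      - 2 * ⟪U.starProjection x, y⟫_ℝ
      + ‖(x - U.starProjection x) - (y - U.starProjection y)‖ ^ 2 := by
  set Q := U.starProjection
  have e : x - y = (Q x - Q y) + ((x - Q x) - (y - Q y)) := by abel
  have hmem : Q x - Q y ∈ U :=
    U.sub_mem (Submodule.starProjection_apply_mem _ _) (Submodule.starProjection_apply_mem _ _)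
  have h1 : ⟪(x - Q x) - (y - Q y), Q x - Q y⟫_ℝ = 0 := by
    rw [inner_sub_left, Submodule.starProjection_inner_eq_zero (K := U) x _ hmem,
      Submodule.starProjection_inner_eq_zero (K := U) y _ hmem, sub_zero]
  have h2 : ⟪Q x, Q y⟫_ℝ = ⟪Q x, y⟫_ℝ := by
    have := Submodule.starProjection_inner_eq_zero (K := U) y (Q x)
      (Submodule.starProjection_apply_mem _ _)
    rw [inner_sub_left] at this
    rw [real_inner_comm (Q y) (Q x), real_inner_comm y (Q x)]; linarith
  rw [e, norm_add_sq_real, real_inner_comm, h1, norm_sub_sq_real, h2]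
  ring

/-- **(3a)** For all points of `K`: `‖Qx‖² + ‖Qy‖² + ‖Px - Py‖² ≤ D²`. -/
theorem three_a {ι : Type*} {b : ι → E} (hb : ∀ j, ‖b j‖ = 1) {K : Set E} (hK : IsCompact K)
    (hs : ∀ j, ∀ x ∈ K, refl (b j) x ∈ K) {D : ℝ} (hD : ∀ x ∈ K, ∀ y ∈ K, ‖x - y‖ ≤ D)
    {x y : E} (hx : x ∈ K) (hy : y ∈ K) :
    ‖(sp b).starProjection x‖ ^ 2 + ‖(sp b).starProjection y‖ ^ 2
      + ‖(x - (sp b).starProjection x) - (y - (sp b).starProjection y)‖ ^ 2 ≤ D ^ 2 := by
  obtain ⟨y', hy', hle⟩ := noavg hb hK hs (Submodule.starProjection_apply_mem (sp b) x) hy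
  have h1 := hD x hx y' hy'.1
  have h2 : ‖x - y'‖ ^ 2 ≤ D ^ 2 := pow_le_pow_left₀ (norm_nonneg _) h1 2
  rw [norm_sub_sq_split (U := sp b) x y'] at h2
  set Q := (sp b).starProjection
  have h3 : y' - Q y' = y - Q y := by
    have e : Q (y' - y) = y' - y := Submodule.starProjection_eq_self_iff.2 hy'.2.1
    rw [map_sub] at e
    have h3 : y' - Q y' - (y - Q y) = y' - y - (Q y' - Q y) := by abel
    rw [e, sub_self] at h3
    exact sub_eq_zero.1 h3
  have h4 : ∀ z : E, ‖z‖ ^ 2 = ‖Q z‖ ^ 2 + ‖z - Q z‖ ^ 2 := by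
    intro z
    have := Submodule.starProjection_inner_eq_zero (K := sp b) z (Q z)
      (Submodule.starProjection_apply_mem _ _)
    have e : z = Q z + (z - Q z) := by abel
    have e2 := norm_add_sq_real (Q z) (z - Q z)
    rw [real_inner_comm, this] at e2
    rw [← e] at e2
    linarith
  have h5 := h4 y'
  have h6 := h4 y
  rw [h3, hy'.2.2] at h5
  rw [h3] at h2
  linarith

/-- **(3b)** `2 ‖Qx‖² < D²`. -/
theorem three_b {ι : Type*} {b : ι → E} (hb : ∀ j, ‖b j‖ = 1) {K : Set E} (hK : IsCompact K)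
    (hs : ∀ j, ∀ x ∈ K, refl (b j) x ∈ K) {D : ℝ} (hD0 : 0 < D)
    (hD : ∀ x ∈ K, ∀ y ∈ K, ‖x - y‖ ≤ D) {x : E} (hx : x ∈ K) :
    2 * ‖(sp b).starProjection x‖ ^ 2 < D ^ 2 := by
  by_cases hQ : (sp b).starProjection x = 0
  · rw [hQ, norm_zero]; nlinarith
  obtain ⟨x₁, hx₁, x₂, hx₂, hlt⟩ := noavg_strict hb hK hs hx hQ
  have h1 := hD x₁ hx₁.1 x₂ hx₂.1
  have h2 : ‖x₁ - x₂‖ ^ 2 ≤ D ^ 2 := pow_le_pow_left₀ (norm_nonneg _) h1 2
  rw [norm_sub_sq_split (U := sp b) x₁ x₂] at h2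
  set Q := (sp b).starProjection
  have h4 : ∀ z : E, ‖z‖ ^ 2 = ‖Q z‖ ^ 2 + ‖z - Q z‖ ^ 2 := by
    intro z
    have := Submodule.starProjection_inner_eq_zero (K := sp b) z (Q z)
      (Submodule.starProjection_apply_mem _ _)
    have e : z = Q z + (z - Q z) := by abel
    have e2 := norm_add_sq_real (Q z) (z - Q z)
    rw [real_inner_comm, this] at e2
    rw [← e] at e2
    linarith
  have h3 : ∀ x' ∈ fib b K x, ‖Q x'‖ ^ 2 = ‖Q x‖ ^ 2 := by
    intro x' hx'
    have e : Q (x' - x) = x' - x := Submodule.starProjection_eq_self_iff.2 hx'.2.1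
    rw [map_sub] at e
    have h3 : x' - Q x' - (x - Q x) = x' - x - (Q x' - Q x) := by abel
    rw [e, sub_self] at h3
    have h5 := h4 x'
    have h6 := h4 x
    rw [sub_eq_zero.1 h3, hx'.2.2] at h5
    linarith
  rw [h3 x₁ hx₁, h3 x₂ hx₂] at h2
  have := sq_nonneg ‖(x₁ - Q x₁) - (x₂ - Q x₂)‖
  linarith

end Vale.Agent.P052.H25
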