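import Mathlib.Topology.MetricSpace.Basic
import Mathlib.Topology.Algebra.Order.Group

/-!
P052, one mirror and three free dimensions: the literal form of the cell inequality.
-/

namespace Vale.Agent.P052.H25

/-- The weighted truncated octahedron at the weight `ρ`. -/
def InW (th τ ρ x y z : ℝ) : Prop :=
  |x| + |y| + |z| ≤ ρ / (2 * th) + 3 * th / 4 ∧ x ≤ ρ / (2 * τ) + τ / 4 ∧
    y ≤ ρ / (2 * τ) + τ / 4 ∧ z ≤ ρ / (2 * τ) + τ / 4

/-- Four closed cells covering the space, such that two points of a cell, one of them of weight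
`1 / 2`, are not far. -/
structure CellsW (th τ μ : ℝ) (C : Fin 4 → ℝ → ℝ → ℝ → Prop) : Prop where
  closed : ∀ j, IsClosed {p : ℝ × ℝ × ℝ | C j p.1 p.2.1 p.2.2}
  cover : ∀ x y z, ∃ j, C j x y z
  pair : ∀ j ρ x y z x' y' z', 1 / 4 ≤ ρ → ρ ≤ 1 / 2 → C j x y z → C j x' y' z' →
    InW th τ ρ x y z → InW th τ (1 / 2) x' y' z' →
      (x - x') ^ 2 + (y - y') ^ 2 + (z - z') ^ 2 ≤ ρ + 1 / 2 - μ

end Vale.Agent.P052.H25
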