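import Vale.Agent.P052.H25.OneMain
import Vale.Agent.P052.H638.Cells

/-!
P052: every bounded set of `ℝ^4` with one mirror is a union of five sets of smaller diameter.
-/

namespace Vale.Agent.P052.H25

open scoped RealInnerProductSpace

/-- **Bounded sets of `ℝ^4` with one mirror.** -/
theorem one_mirror (X : Set (EuclideanSpace ℝ (Fin 4))) (hX : Bornology.IsBounded X)
    (hD : 0 < Metric.diam X) (α : Fin 1 → EuclideanSpace ℝ (Fin 4)) (c : Fin 1 → ℝ)
    (hα : ∀ i, ‖α i‖ = 1)
    (hmir : ∀ i, ∀ x ∈ X, x - (2 * (⟪α i, x⟫ - c i)) • α i ∈ X) :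
    IsSmallerCover X 5 :=
  main_one (by norm_num) (by norm_num) (by norm_num) H638.cells X hX hD α c hα hmir

end Vale.Agent.P052.H25
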