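import Vale.Agent.P052.H25.Two

/-!
P052, one mirror and three free dimensions: the classes from the cells of the truncated
octahedron.
-/

namespace Vale.Agent.P052.H25

open Metric Set Vale.Agent.P052.H768
open scoped RealInnerProductSpace

/-- The truncated octahedron of inradius `r`. -/
def InT (r x y z : ℝ) : Prop := |x| + |y| + |z| ≤ √3 * r ∧ x ≤ r ∧ y ≤ r ∧ z ≤ r

/-- Four cells: flat cells have diameter less than `1`, and every tall point sees one cell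
within the radius `r + 1 / 2`. -/
structure Cells (μ : ℝ) (C : Fin 4 → ℝ → ℝ → ℝ → Prop) : Prop where
  closed : ∀ j, IsClosed {p : ℝ × ℝ × ℝ | C j p.1 p.2.1 p.2.2}
  cover : ∀ x y z, ∃ j, C j x y z
  flat : ∀ j x y z x' y' z', C j x y z → C j x' y' z' → InT (1 / 2) x y z →
    InT (1 / 2) x' y' z' → (x - x') ^ 2 + (y - y') ^ 2 + (z - z') ^ 2 ≤ 1 - μ
  tall : ∀ r x y z, √3 / 2 - 1 / 2 ≤ r → r ≤ 1 / 2 → InT r x y z → ∃ j, ∀ x' y' z',
    C j x' y' z' → InT (1 / 2) x' y' z' →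
      (x - x') ^ 2 + (y - y') ^ 2 + (z - z') ^ 2 ≤ (r + 1 / 2) ^ 2 - μ

theorem InT.mono {r r' x y z : ℝ} (h : InT r x y z) (hr : r ≤ r') : InT r' x y z :=
  ⟨h.1.trans (mul_le_mul_of_nonneg_left hr (Real.sqrt_nonneg _)), h.2.1.trans hr,
    h.2.2.1.trans hr, h.2.2.2.trans hr⟩

theorem InT.div {r x y z D : ℝ} (hD : 0 < D) (h : InT r x y z) :
    InT (r / D) (x / D) (y / D) (z / D) := by
  obtain ⟨h1, h2, h3, h4⟩ := h
  refine ⟨?_, div_le_div_of_nonneg_right h2 hD.le, div_le_div_of_nonneg_right h3 hD.le,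
    div_le_div_of_nonneg_right h4 hD.le⟩
  rw [abs_div, abs_div, abs_div, abs_of_pos hD, ← add_div, ← add_div, mul_div_assoc']
  exact div_le_div_of_nonneg_right h1 hD.le

/-- The inradius of the octahedron at height `s`. -/
noncomputable def rd (D s : ℝ) : ℝ := √(D ^ 2 - s ^ 2) - D / 2

theorem rd_lo {D s : ℝ} (hD : 0 < D) (hs0 : 0 ≤ s) (hs : 2 * s ≤ D) :
    √3 / 2 - 1 / 2 ≤ rd D s / D := by
  have h3 : √3 ^ 2 = 3 := Real.sq_sqrt (by norm_num)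
  have h1 : √3 / 2 * D ≤ √(D ^ 2 - s ^ 2) := by
    apply Real.le_sqrt_of_sq_le
    have : (√3 / 2 * D) ^ 2 = √3 ^ 2 / 4 * D ^ 2 := by ring
    rw [this, h3]
    nlinarith
  rw [le_div_iff₀ hD]
  unfold rd
  linarith

theorem rd_hi {D s : ℝ} (hD : 0 < D) : rd D s / D ≤ 1 / 2 := by
  have h1 : √(D ^ 2 - s ^ 2) ≤ D := by
    rw [Real.sqrt_le_left hD.le]
    nlinarith [sq_nonneg s]
  rw [div_le_iff₀ hD]
  unfold rd
  linarith

theorem rd_sq {D s : ℝ} (hD : 0 < D) (hs0 : 0 ≤ s) (hs : 2 * s ≤ D) :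
    (rd D s / D + 1 / 2) ^ 2 = 1 - s ^ 2 / D ^ 2 := by
  have h1 : rd D s / D + 1 / 2 = √(D ^ 2 - s ^ 2) / D := by
    unfold rd; field_simp; ring
  have h2 : √(D ^ 2 - s ^ 2) ^ 2 = D ^ 2 - s ^ 2 := Real.sq_sqrt (by nlinarith)
  rw [h1, div_pow, h2, sub_div, div_self (by positivity)]

/-- The radii of two heights add up. -/
theorem le_rd_add {D s s' d : ℝ} (hD : 0 < D) (hs0 : 0 ≤ s) (hs : 2 * s ≤ D) (hs0' : 0 ≤ s')
    (hs' : 2 * s' ≤ D) (hd : d ^ 2 ≤ D ^ 2 - (s + s') ^ 2) : d ≤ rd D s + rd D s' := by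
  have a1 : 0 ≤ D ^ 2 - s ^ 2 := by nlinarith
  have a2 : 0 ≤ D ^ 2 - s' ^ 2 := by nlinarith
  have b1 : √(D ^ 2 - s ^ 2) ^ 2 = D ^ 2 - s ^ 2 := Real.sq_sqrt a1
  have b2 : √(D ^ 2 - s' ^ 2) ^ 2 = D ^ 2 - s' ^ 2 := Real.sq_sqrt a2
  have c1 : √(D ^ 2 - s ^ 2) ≤ D := by
    rw [Real.sqrt_le_left hD.le]; nlinarith [sq_nonneg s]
  have c2 : √(D ^ 2 - s' ^ 2) ≤ D := by
    rw [Real.sqrt_le_left hD.le]; nlinarith [sq_nonneg s']
  have d1 : D / 2 ≤ √(D ^ 2 - s ^ 2) := Real.le_sqrt_of_sq_le (by nlinarith)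
  have d2 : D / 2 ≤ √(D ^ 2 - s' ^ 2) := Real.le_sqrt_of_sq_le (by nlinarith)
  unfold rd
  generalize √(D ^ 2 - s ^ 2) = A at *
  generalize √(D ^ 2 - s' ^ 2) = A' at *
  have e1 : 0 ≤ A - D / 2 + (A' - D / 2) := by linarith
  have e2 : d ^ 2 ≤ (A - D / 2 + (A' - D / 2)) ^ 2 := by
    nlinarith [mul_nonneg (sub_nonneg.2 c1) (sub_nonneg.2 c2), mul_nonneg hs0 hs0']
  exact le_of_sq_le_sq' e1 e2
where
  le_of_sq_le_sq' {a b : ℝ} (hb : 0 ≤ b) (h : a ^ 2 ≤ b ^ 2) : a ≤ b :=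
    (abs_le_of_sq_le_sq' h hb).2

variable {V : Type*} [NormedAddCommGroup V] [InnerProductSpace ℝ V] [FiniteDimensional ℝ V]

theorem sp_one (b : Fin 1 → V) (hb : ‖b 0‖ = 1) (x : V) :
    (Submodule.span ℝ (Set.range b)).starProjection x = ⟪b 0, x⟫ • b 0 := by
  have h1 : Submodule.span ℝ (Set.range b) = Submodule.span ℝ {b 0} := by
    rw [Set.range_unique]; rfl
  have h2 : ∀ (W : Submodule ℝ V), W = Submodule.span ℝ {b 0} →
      W.starProjection x = ⟪b 0, x⟫ • b 0 := by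
    rintro W rfl
    exact Submodule.starProjection_unit_singleton ℝ hb x
  exact h2 _ h1

theorem dist_one (b : Fin 1 → V) (hb : ‖b 0‖ = 1) (x y : V) :
    ‖x - y‖ ^ 2 = (⟪b 0, x⟫ - ⟪b 0, y⟫) ^ 2
      + ‖zc (Submodule.span ℝ (Set.range b)) x - zc (Submodule.span ℝ (Set.range b)) y‖ ^ 2 := by
  rw [norm_sq_split_sub (Submodule.span ℝ (Set.range b)) x y, sp_one b hb, sp_one b hb,
    norm_smul, norm_smul, hb, real_inner_smul_left, inner_smul_right,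
    real_inner_self_eq_norm_sq, hb, mul_one, mul_one, Real.norm_eq_abs, Real.norm_eq_abs,
    sq_abs, sq_abs]
  ring

theorem inner_rf_self {a : V} (ha : ‖a‖ = 1) (x : V) : ⟪a, rf a x⟫ = -⟪a, x⟫ := by
  rw [rf, inner_sub_right, inner_smul_right, real_inner_self_eq_norm_sq, ha]
  ring

section
variable (b : Fin 1 → V) (hb : ∀ i, ‖b i‖ = 1) {K : Set V}
  (hinv : ∀ i, ∀ v ∈ K, rf (b i) v ∈ K) {D : ℝ} (hD0 : 0 < D)
  (hD : ∀ x ∈ K, ∀ y ∈ K, dist x y ≤ D)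

include hb hinv hD

/-- The pair inequality with one mirror. -/
theorem pair_one {x y : V} (hx : x ∈ K) (hy : y ∈ K) :
    ‖zc (Submodule.span ℝ (Set.range b)) x - zc (Submodule.span ℝ (Set.range b)) y‖ ^ 2
      ≤ D ^ 2 - (|⟪b 0, x⟫| + |⟪b 0, y⟫|) ^ 2 := by
  have hb0 : b 0 ∈ Submodule.span ℝ (Set.range b) := Submodule.subset_span ⟨0, rfl⟩
  have h1 := dist_one b (hb 0) x y
  have h2 := dist_one b (hb 0) x (rf (b 0) y)
  rw [zc_rf _ hb0, inner_rf_self (hb 0)] at h2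
  have d1 : ‖x - y‖ ^ 2 ≤ D ^ 2 :=
    pow_le_pow_left₀ (norm_nonneg _) (by rw [← dist_eq_norm]; exact hD x hx y hy) 2
  have d2 : ‖x - rf (b 0) y‖ ^ 2 ≤ D ^ 2 :=
    pow_le_pow_left₀ (norm_nonneg _) (by rw [← dist_eq_norm]; exact hD x hx _ (hinv 0 y hy)) 2
  rcases le_total 0 ⟪b 0, x⟫ with a1 | a1 <;> rcases le_total 0 ⟪b 0, y⟫ with a2 | a2
  · rw [abs_of_nonneg a1, abs_of_nonneg a2]; linarith
  · rw [abs_of_nonneg a1, abs_of_nonpos a2]; linarith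
  · rw [abs_of_nonpos a1, abs_of_nonneg a2]
    have : (-⟪b 0, x⟫ + ⟪b 0, y⟫) ^ 2 = (⟪b 0, x⟫ - ⟪b 0, y⟫) ^ 2 := by ring
    rw [this]; linarith
  · rw [abs_of_nonpos a1, abs_of_nonpos a2]
    have : (-⟪b 0, x⟫ + -⟪b 0, y⟫) ^ 2 = (⟪b 0, x⟫ - -⟪b 0, y⟫) ^ 2 := by ring
    rw [this]; linarith

include hD0 in
theorem height_le {x : V} (hx : x ∈ K) : 2 * |⟪b 0, x⟫| ≤ D := by
  have h1 := pair_one b hb hinv hD hx hx
  rw [sub_self, norm_zero] at h1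
  have h2 : (2 * |⟪b 0, x⟫|) ^ 2 ≤ D ^ 2 := by nlinarith
  exact (abs_le_of_sq_le_sq' h2 hD0.le).2

include hD0 in
/-- The pair inequality for the radii. -/
theorem pair_rd {x y : V} (hx : x ∈ K) (hy : y ∈ K) :
    ‖zc (Submodule.span ℝ (Set.range b)) x - zc (Submodule.span ℝ (Set.range b)) y‖
      ≤ rd D |⟪b 0, x⟫| + rd D |⟪b 0, y⟫| :=
  le_rd_add hD0 (abs_nonneg _) (height_le b hb hinv hD0 hD hx) (abs_nonneg _)
    (height_le b hb hinv hD0 hD hy) (pair_one b hb hinv hD hx hy)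

end

/-- **One mirror, three free dimensions: four further classes.** -/
theorem cover_one (b : Fin 1 → V) (hb : ∀ i, ‖b i‖ = 1) {K : Set V}
    (hK : IsCompact K) (hinv : ∀ i, ∀ v ∈ K, rf (b i) v ∈ K) {D : ℝ}
    (hD0 : 0 < D) (hD : ∀ x ∈ K, ∀ y ∈ K, dist x y ≤ D)
    (q₁ q₂ q₃ : V → ℝ) (hq₁ : Continuous q₁) (hq₂ : Continuous q₂) (hq₃ : Continuous q₃)
    (hq : ∀ x ∈ K, ∀ y ∈ K, ‖zc (Submodule.span ℝ (Set.range b)) x
      - zc (Submodule.span ℝ (Set.range b)) y‖ ^ 2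
        = (q₁ x - q₁ y) ^ 2 + (q₂ x - q₂ y) ^ 2 + (q₃ x - q₃ y) ^ 2)
    (hT : ∀ x ∈ K, InT (rd D |⟪b 0, x⟫|) (q₁ x) (q₂ x) (q₃ x))
    {μ : ℝ} (hμ : 0 < μ) {Ce : Fin 4 → ℝ → ℝ → ℝ → Prop} (hC : Cells μ Ce) :
    ∃ C : Fin 1 ⊕ Fin 4 → Set V, K ⊆ ⋃ i, C i ∧
      ∃ D' < D, ∀ i, ∀ x ∈ C i, ∀ y ∈ C i, dist x y ≤ D' := by
  set U := Submodule.span ℝ (Set.range b) with hU
  set R := rem b K with hR
  have hRc : IsCompact R := rem_compact b hK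
  have hRK : ∀ x ∈ R, x ∈ K := fun x hx => hx.1
  set s : V → ℝ := fun x => |⟪b 0, x⟫| with hs
  have hsc : Continuous s := by
    simp only [hs]; exact (by fun_prop : Continuous fun x : V => ⟪b 0, x⟫).abs
  have hs0 : ∀ x, 0 ≤ s x := fun x => abs_nonneg _
  have hsR : ∀ x ∈ R, ⟪b 0, x⟫ = -s x := by
    intro x hx
    simp only [hs]
    rw [abs_of_nonpos (hx.2 0), neg_neg]
  have hsD : ∀ x ∈ K, 2 * s x ≤ D := fun x hx => height_le b hb hinv hD0 hD hx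
  -- the margin
  set δ : ℝ := D * min (1 / 4) (μ / 2) with hδ
  have hm0 : 0 < min (1 / 4 : ℝ) (μ / 2) := lt_min (by norm_num) (by linarith)
  have hδ0 : 0 < δ := mul_pos hD0 hm0
  have hδ2 : δ ^ 2 ≤ μ / 2 * D ^ 2 := by
    have h1 : min (1 / 4 : ℝ) (μ / 2) ≤ 1 / 4 := min_le_left _ _
    have h2 : min (1 / 4 : ℝ) (μ / 2) ≤ μ / 2 := min_le_right _ _
    have h3 : min (1 / 4 : ℝ) (μ / 2) ^ 2 ≤ μ / 2 := by nlinarith
    rw [hδ, mul_pow, mul_comm]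
    exact mul_le_mul_of_nonneg_right h3 (by positivity)
  have hμ1 : μ ≤ 1 := by
    obtain ⟨j, hj⟩ := hC.cover 0 0 0
    have h0 : InT (1 / 2) 0 0 0 := by
      refine ⟨?_, by norm_num, by norm_num, by norm_num⟩
      have := Real.sqrt_nonneg 3
      rw [abs_zero]; linarith
    have := hC.flat j 0 0 0 0 0 0 hj hj h0 h0
    linarith
  set D₁ : ℝ := √(1 - μ / 2) * D with hD₁
  have hD₁sq : D₁ ^ 2 = (1 - μ / 2) * D ^ 2 := by
    rw [hD₁, mul_pow, Real.sq_sqrt (by linarith)]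
  have hD₁0 : 0 ≤ D₁ := by positivity
  have hD₁D : D₁ < D := by
    have h1 : D₁ ^ 2 < D ^ 2 := by
      rw [hD₁sq]; nlinarith [mul_pos hD0 hD0]
    exact lt_of_pow_lt_pow_left₀ 2 hD0.le h1
  have hle : ∀ x y : V, ‖x - y‖ ^ 2 ≤ (1 - μ / 2) * D ^ 2 → dist x y ≤ D₁ := by
    intro x y h
    rw [dist_eq_norm]
    rw [← hD₁sq] at h
    exact (abs_le_of_sq_le_sq' h hD₁0).2
  -- distances in the remainder
  have hdR : ∀ x ∈ R, ∀ y ∈ R, ‖x - y‖ ^ 2 = (s x - s y) ^ 2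
      + ((q₁ x - q₁ y) ^ 2 + (q₂ x - q₂ y) ^ 2 + (q₃ x - q₃ y) ^ 2) := by
    intro x hx y hy
    rw [dist_one b (hb 0) x y, hsR x hx, hsR y hy, ← hU, hq x hx.1 y hy.1]
    ring
  have hTn : ∀ x ∈ K, InT (rd D (s x) / D) (q₁ x / D) (q₂ x / D) (q₃ x / D) :=
    fun x hx => (hT x hx).div hD0
  have hTh : ∀ x ∈ K, InT (1 / 2) (q₁ x / D) (q₂ x / D) (q₃ x / D) :=
    fun x hx => (hTn x hx).mono (rd_hi hD0)
  have hscale : ∀ x y : V, (q₁ x - q₁ y) ^ 2 + (q₂ x - q₂ y) ^ 2 + (q₃ x - q₃ y) ^ 2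
      = D ^ 2 * ((q₁ x / D - q₁ y / D) ^ 2 + (q₂ x / D - q₂ y / D) ^ 2
        + (q₃ x / D - q₃ y / D) ^ 2) := by
    intro x y
    field_simp
  -- the flat classes
  set B : Fin 4 → Set V := fun j => {x | x ∈ R ∧ s x ≤ δ ∧ Ce j (q₁ x / D) (q₂ x / D) (q₃ x / D)}
    with hB
  have hBc : ∀ j, IsCompact (B j) := by
    intro j
    refine hRc.inter_right (IsClosed.inter (isClosed_le hsc continuous_const) ?_)
    exact (hC.closed j).preimage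
      ((hq₁.div_const D).prodMk ((hq₂.div_const D).prodMk (hq₃.div_const D)))
  have hBB : ∀ j, ∀ x ∈ B j, ∀ y ∈ B j, dist x y ≤ D₁ := by
    intro j x hx y hy
    refine hle x y ?_
    have h1 := hC.flat j _ _ _ _ _ _ hx.2.2 hy.2.2 (hTh x (hRK x hx.1)) (hTh y (hRK y hy.1))
    rw [hdR x hx.1 y hy.1, hscale]
    have h2 : (s x - s y) ^ 2 ≤ δ ^ 2 := by
      have a1 := hs0 x
      have a2 := hs0 y
      have a3 := hx.2.1
      have a4 := hy.2.1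
      exact sq_le_sq' (by linarith) (by linarith)
    have h3 := mul_le_mul_of_nonneg_left h1 (sq_nonneg D)
    nlinarith
  -- the tall classes
  set T : Fin 4 → Set V := fun j => {x | x ∈ R ∧ δ ≤ s x ∧ ∀ a ∈ B j, dist a x ≤ D₁} with hTd
  have hTc : ∀ j, IsCompact (T j) := by
    intro j
    refine hRc.inter_right (IsClosed.inter (isClosed_le continuous_const hsc) ?_)
    have : {x : V | ∀ a ∈ B j, dist a x ≤ D₁} = ⋂ a ∈ B j, {x : V | dist a x ≤ D₁} := by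
      ext x; simp
    change IsClosed {x : V | ∀ a ∈ B j, dist a x ≤ D₁}
    rw [this]
    exact isClosed_biInter fun a _ => isClosed_le (by fun_prop) continuous_const
  have hTT : ∀ j, ∀ x ∈ T j, ∀ y ∈ T j, dist x y ≠ D := by
    intro j x hx y hy hxy
    have h1 := dist_one b (hb 0) x y
    have h2 := pair_one b hb hinv hD hx.1.1 hy.1.1
    rw [dist_eq_norm] at hxy
    rw [hxy, hsR x hx.1, hsR y hy.1] at h1
    have a3 : 0 < s x := lt_of_lt_of_le hδ0 hx.2.1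
    have a4 : 0 < s y := lt_of_lt_of_le hδ0 hy.2.1
    have h3 := mul_pos a3 a4
    have h4 : ‖zc U x - zc U y‖ ^ 2 ≤ D ^ 2 - (s x + s y) ^ 2 := h2
    rw [← hU] at h1
    nlinarith
  set C : Fin 4 → Set V := fun j => B j ∪ T j with hCd
  have hCc : ∀ j, IsCompact (C j) := fun j => (hBc j).union (hTc j)
  have hCK : ∀ j, ∀ x ∈ C j, x ∈ K := by
    rintro j x (hx | hx)
    · exact hx.1.1
    · exact hx.1.1
  have hCD : ∀ j, ∀ x ∈ C j, ∀ y ∈ C j, dist x y ≤ D :=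
    fun j x hx y hy => hD x (hCK j x hx) y (hCK j y hy)
  have hCfar : ∀ j, ∀ x ∈ C j, ∀ y ∈ C j, dist x y ≠ D := by
    rintro j x (hx | hx) y (hy | hy)
    · exact ne_of_lt (lt_of_le_of_lt (hBB j x hx y hy) hD₁D)
    · exact ne_of_lt (lt_of_le_of_lt (hy.2.2 x hx) hD₁D)
    · rw [dist_comm]
      exact ne_of_lt (lt_of_le_of_lt (hx.2.2 y hy) hD₁D)
    · exact hTT j x hx y hy
  choose O hO1 hO2 hO3 using fun j => exists_open_nofar (hCc j) (hCD j) (hCfar j)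
  refine core_cover b hb hK hinv hD (κ := Fin 4) O hO1 ?_ ?_
  · intro x hx
    have : ∃ j, x ∈ C j := by
      rcases le_total (s x) δ with h | h
      · obtain ⟨j, hj⟩ := hC.cover (q₁ x / D) (q₂ x / D) (q₃ x / D)
        exact ⟨j, Or.inl ⟨hx, h, hj⟩⟩
      · obtain ⟨j, hj⟩ := hC.tall (rd D (s x) / D) (q₁ x / D) (q₂ x / D) (q₃ x / D)
          (rd_lo hD0 (hs0 x) (hsD x hx.1)) (rd_hi hD0) (hTn x hx.1)
        refine ⟨j, Or.inr ⟨hx, h, fun a ha => ?_⟩⟩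
        rw [dist_comm]
        refine hle x a ?_
        have h1 := hj _ _ _ ha.2.2 (hTh a (hRK a ha.1))
        rw [rd_sq hD0 (hs0 x) (hsD x hx.1)] at h1
        rw [hdR x hx a ha.1, hscale]
        have h2 : (s x - s a) ^ 2 ≤ s x ^ 2 := by
          have a1 := hs0 a
          have a2 := ha.2.1
          exact sq_le_sq' (by linarith) (by linarith)
        have h3 := mul_le_mul_of_nonneg_left h1 (sq_nonneg D)
        have h4 : D ^ 2 * (1 - s x ^ 2 / D ^ 2 - μ) = D ^ 2 - s x ^ 2 - D ^ 2 * μ := by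
          field_simp
        rw [h4] at h3
        nlinarith [mul_pos hμ (mul_pos hD0 hD0)]
    obtain ⟨j, hj⟩ := this
    exact ⟨j, hO2 j hj⟩
  · intro j x _ y _ h1 h2
    exact hO3 j x h1 y h2

end Vale.Agent.P052.H25
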