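import Vale.Agent.P052.H25.OneGlue
import Vale.Agent.P052.H25.OneCells

/-!
P052, one mirror and three free dimensions: the classes by position.
-/

namespace Vale.Agent.P052.H25

open Metric Set Vale.Agent.P052.H768
open scoped RealInnerProductSpace

variable {V : Type*} [NormedAddCommGroup V] [InnerProductSpace ℝ V] [FiniteDimensional ℝ V]

/-- The weighted radius: `ρ = D² / 2 - s²`, scale `t D`. -/
noncomputable def rw (D t s : ℝ) : ℝ := (D ^ 2 / 2 - s ^ 2) / (2 * (t * D)) + t * D / 4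

theorem rw_pair {D t s s' d : ℝ} (hD : 0 < D) (ht : 0 < t) (hs0 : 0 ≤ s) (hs : 2 * s ≤ D)
    (hs0' : 0 ≤ s') (hs' : 2 * s' ≤ D) (hd : d ≤ D ^ 2 - (s + s') ^ 2) :
    d ≤ (rw D t s + rw D t s') ^ 2 := by
  have h1 : rw D t s + rw D t s' = (D ^ 2 - s ^ 2 - s' ^ 2) / (2 * (t * D)) + t * D / 2 := by
    unfold rw; ring
  have h2 : ((D ^ 2 - s ^ 2 - s' ^ 2) / (2 * (t * D)) + t * D / 2) ^ 2
      = ((D ^ 2 - s ^ 2 - s' ^ 2) / (2 * (t * D)) - t * D / 2) ^ 2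
        + (D ^ 2 - s ^ 2 - s' ^ 2) := by
    field_simp
    ring
  rw [h1, h2]
  have h3 := sq_nonneg ((D ^ 2 - s ^ 2 - s' ^ 2) / (2 * (t * D)) - t * D / 2)
  nlinarith [mul_nonneg hs0 hs0']

theorem rw_nonneg {D t s : ℝ} (hD : 0 < D) (ht : 0 < t) (hs0 : 0 ≤ s) (hs : 2 * s ≤ D) :
    0 ≤ rw D t s := by
  unfold rw
  have : 0 ≤ D ^ 2 / 2 - s ^ 2 := by nlinarith
  positivity

theorem continuous_rw {D t : ℝ} : Continuous (rw D t) := by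
  unfold rw
  fun_prop

/-- **One mirror, three free dimensions: four further classes, by position.** -/
theorem cover_oneW (b : Fin 1 → V) (hb : ∀ i, ‖b i‖ = 1) {K : Set V}
    (hK : IsCompact K) (hinv : ∀ i, ∀ v ∈ K, rf (b i) v ∈ K) {D : ℝ}
    (hD0 : 0 < D) (hD : ∀ x ∈ K, ∀ y ∈ K, dist x y ≤ D)
    (q₁ q₂ q₃ : V → ℝ) (hq₁ : Continuous q₁) (hq₂ : Continuous q₂) (hq₃ : Continuous q₃)
    (hq : ∀ x ∈ K, ∀ y ∈ K, ‖zc (Submodule.span ℝ (Set.range b)) x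
      - zc (Submodule.span ℝ (Set.range b)) y‖ ^ 2
        = (q₁ x - q₁ y) ^ 2 + (q₂ x - q₂ y) ^ 2 + (q₃ x - q₃ y) ^ 2)
    {th τ μ : ℝ} (hth : 0 < th) (hτ : 0 < τ) (hμ : 0 < μ)
    (hO : ∀ x ∈ K, |q₁ x| + |q₂ x| + |q₃ x| ≤ √3 * rw D (√3 * th) |⟪b 0, x⟫|)
    (hT : ∀ x ∈ K, q₁ x ≤ rw D τ |⟪b 0, x⟫| ∧ q₂ x ≤ rw D τ |⟪b 0, x⟫| ∧
      q₃ x ≤ rw D τ |⟪b 0, x⟫|)
    {Ce : Fin 4 → ℝ → ℝ → ℝ → Prop} (hC : CellsW th τ μ Ce) :
    ∃ C : Fin 1 ⊕ Fin 4 → Set V, K ⊆ ⋃ i, C i ∧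
      ∃ D' < D, ∀ i, ∀ x ∈ C i, ∀ y ∈ C i, dist x y ≤ D' := by
  set U := Submodule.span ℝ (Set.range b) with hU
  set R := rem b K with hR
  have hRc : IsCompact R := rem_compact b hK
  set s : V → ℝ := fun x => |⟪b 0, x⟫| with hs
  have hs0 : ∀ x, 0 ≤ s x := fun x => abs_nonneg _
  have hsR : ∀ x ∈ R, ⟪b 0, x⟫ = -s x := by
    intro x hx
    simp only [hs]
    rw [abs_of_nonpos (hx.2 0), neg_neg]
  have hsD : ∀ x ∈ K, 2 * s x ≤ D := fun x hx => height_le b hb hinv hD0 hD hx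
  have h3 : √3 ^ 2 = 3 := Real.sq_sqrt (by norm_num)
  have h30 : 0 < √3 := Real.sqrt_pos.2 (by norm_num)
  -- normalised coordinates
  set ρ : V → ℝ := fun x => 1 / 2 - s x ^ 2 / D ^ 2 with hρ
  have hρlo : ∀ x ∈ K, 1 / 4 ≤ ρ x := by
    intro x hx
    have h1 := hsD x hx
    have h2 : s x ^ 2 / D ^ 2 ≤ 1 / 4 := by
      rw [div_le_iff₀ (by positivity)]
      nlinarith [hs0 x]
    simp only [hρ]; linarith
  have hρhi : ∀ x, ρ x ≤ 1 / 2 := by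
    intro x
    have : 0 ≤ s x ^ 2 / D ^ 2 := by positivity
    simp only [hρ]; linarith
  have hrwO : ∀ x, √3 * rw D (√3 * th) (s x) / D = ρ x / (2 * th) + 3 * th / 4 := by
    intro x
    simp only [rw, hρ]
    field_simp
    rw [h3]
    ring
  have hrwT : ∀ x, rw D τ (s x) / D = ρ x / (2 * τ) + τ / 4 := by
    intro x
    simp only [rw, hρ]
    field_simp
  have hIn : ∀ x ∈ K, InW th τ (ρ x) (q₁ x / D) (q₂ x / D) (q₃ x / D) := by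
    intro x hx
    refine ⟨?_, ?_, ?_, ?_⟩
    · rw [← hrwO, abs_div, abs_div, abs_div, abs_of_pos hD0, ← add_div, ← add_div]
      exact div_le_div_of_nonneg_right (hO x hx) hD0.le
    · rw [← hrwT]; exact div_le_div_of_nonneg_right (hT x hx).1 hD0.le
    · rw [← hrwT]; exact div_le_div_of_nonneg_right (hT x hx).2.1 hD0.le
    · rw [← hrwT]; exact div_le_div_of_nonneg_right (hT x hx).2.2 hD0.le
  have hscale : ∀ x y : V, (q₁ x - q₁ y) ^ 2 + (q₂ x - q₂ y) ^ 2 + (q₃ x - q₃ y) ^ 2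
      = D ^ 2 * ((q₁ x / D - q₁ y / D) ^ 2 + (q₂ x / D - q₂ y / D) ^ 2
        + (q₃ x / D - q₃ y / D) ^ 2) := by
    intro x y
    field_simp
  -- the classes
  set C : Fin 4 → Set V := fun j => {x | x ∈ R ∧ Ce j (q₁ x / D) (q₂ x / D) (q₃ x / D)}
    with hCd
  have hCc : ∀ j, IsCompact (C j) := by
    intro j
    refine hRc.inter_right ?_
    exact (hC.closed j).preimage
      ((hq₁.div_const D).prodMk ((hq₂.div_const D).prodMk (hq₃.div_const D)))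
  have hCK : ∀ j, ∀ x ∈ C j, x ∈ K := fun j x hx => hx.1.1
  have hCD : ∀ j, ∀ x ∈ C j, ∀ y ∈ C j, dist x y ≤ D :=
    fun j x hx y hy => hD x (hCK j x hx) y (hCK j y hy)
  -- a far pair, one of the two on the mirror
  have key : ∀ j, ∀ x ∈ C j, ∀ y ∈ C j, s y = 0 → ‖x - y‖ = D → False := by
    intro j x hx y hy hsy hxy
    have h1 := dist_one b (hb 0) x y
    rw [hxy, hsR x hx.1, hsR y hy.1, hsy, ← hU, hq x hx.1.1 y hy.1.1, hscale] at h1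
    have hρy : ρ y = 1 / 2 := by simp only [hρ]; rw [hsy]; simp
    have hy' := hIn y hy.1.1
    rw [hρy] at hy'
    have h2 := hC.pair j (ρ x) _ _ _ _ _ _ (hρlo x hx.1.1) (hρhi x) hx.2 hy.2
      (hIn x hx.1.1) hy'
    have h4 := mul_le_mul_of_nonneg_left h2 (sq_nonneg D)
    have h5 : D ^ 2 * (ρ x + 1 / 2 - μ) = D ^ 2 - s x ^ 2 - D ^ 2 * μ := by
      simp only [hρ]
      field_simp
      ring
    rw [h5] at h4
    have h6 : 0 < D ^ 2 * μ := by positivity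
    nlinarith
  have hCfar : ∀ j, ∀ x ∈ C j, ∀ y ∈ C j, dist x y ≠ D := by
    intro j x hx y hy hxy
    rw [dist_eq_norm] at hxy
    have h1 := dist_one b (hb 0) x y
    have h2 := pair_one b hb hinv hD hx.1.1 hy.1.1
    rw [hxy, hsR x hx.1, hsR y hy.1] at h1
    have h4 : ‖zc U x - zc U y‖ ^ 2 ≤ D ^ 2 - (s x + s y) ^ 2 := h2
    rw [← hU] at h1
    have h5 : s x * s y ≤ 0 := by nlinarith
    have h6 : s x * s y = 0 := le_antisymm h5 (mul_nonneg (hs0 x) (hs0 y))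
    rcases mul_eq_zero.1 h6 with h | h
    · exact key j y hy x hx h (by rw [norm_sub_rev]; exact hxy)
    · exact key j x hx y hy h hxy
  choose O hO1 hO2 hO3 using fun j => exists_open_nofar (hCc j) (hCD j) (hCfar j)
  refine core_cover b hb hK hinv hD (κ := Fin 4) O hO1 ?_ ?_
  · intro x hx
    obtain ⟨j, hj⟩ := hC.cover (q₁ x / D) (q₂ x / D) (q₃ x / D)
    exact ⟨j, hO2 j ⟨hx, hj⟩⟩
  · intro j x _ y _ h1 h2
    exact hO3 j x h1 y h2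

/-- Coordinates on a three dimensional orthogonal complement. -/
theorem exists_coord_three (U : Submodule ℝ V) (h2 : Module.finrank ℝ Uᗮ = 3) :
    ∃ q₁ q₂ q₃ : V → ℝ, Continuous q₁ ∧ Continuous q₂ ∧ Continuous q₃ ∧
      ∀ x y, ‖zc U x - zc U y‖ ^ 2
        = (q₁ x - q₁ y) ^ 2 + (q₂ x - q₂ y) ^ 2 + (q₃ x - q₃ y) ^ 2 := by
  have w : OrthonormalBasis (Fin 3) ℝ Uᗮ := (stdOrthonormalBasis ℝ Uᗮ).reindex (finCongr h2)
  refine ⟨fun x => ⟪((w 0 : Uᗮ) : V), x⟫, fun x => ⟪((w 1 : Uᗮ) : V), x⟫,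
    fun x => ⟪((w 2 : Uᗮ) : V), x⟫, by fun_prop, by fun_prop, by fun_prop, fun x y => ?_⟩
  have key : ∀ (i : Fin 3) (v : V), ⟪((w i : Uᗮ) : V), v⟫ = ⟪((w i : Uᗮ) : V), zc U v⟫ := by
    intro i v
    nth_rw 1 [← sp_add_zc U v]
    rw [inner_add_right, real_inner_comm,
      (Submodule.mem_orthogonal U _).1 (w i).2 _ (sp_mem U v), zero_add]
  rw [← zc_sub]
  have h3 : ‖(⟨zc U (x - y), zc_mem U (x - y)⟩ : Uᗮ)‖ ^ 2
      = ∑ i, ‖⟪w i, (⟨zc U (x - y), zc_mem U (x - y)⟩ : Uᗮ)⟫‖ ^ 2 :=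
    (w.sum_sq_norm_inner_right _).symm
  rw [Fin.sum_univ_three] at h3
  have h4 : ‖(⟨zc U (x - y), zc_mem U (x - y)⟩ : Uᗮ)‖ = ‖zc U (x - y)‖ := rfl
  have h5 : ∀ i, ⟪w i, (⟨zc U (x - y), zc_mem U (x - y)⟩ : Uᗮ)⟫
      = ⟪((w i : Uᗮ) : V), x⟫ - ⟪((w i : Uᗮ) : V), y⟫ := by
    intro i
    rw [← inner_sub_right, key i (x - y)]
    rfl
  rw [h4, h5, h5, h5, Real.norm_eq_abs, Real.norm_eq_abs, Real.norm_eq_abs, sq_abs, sq_abs,
    sq_abs] at h3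
  exact h3

end Vale.Agent.P052.H25
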