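import Vale.Agent.P052.H25.OneGlue2
import Vale.Agent.P052.H515.Octa

/-!
P052, one mirror in `ℝ^4`: the theorem for bounded sets, from the cells.
-/

namespace Vale.Agent.P052.H25

open Metric Set Vale.Agent.P052.H768
open scoped RealInnerProductSpace

/-- **Bounded sets of `ℝ^4` with one mirror**, from the cell inequality. -/
theorem main_one {th τ μ : ℝ} (hth : 0 < th) (hτ : 0 < τ) (hμ : 0 < μ)
    {Ce : Fin 4 → ℝ → ℝ → ℝ → Prop} (hC : CellsW th τ μ Ce)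
    (X : Set (EuclideanSpace ℝ (Fin 4))) (hX : Bornology.IsBounded X)
    (hD : 0 < Metric.diam X) (α : Fin 1 → EuclideanSpace ℝ (Fin 4)) (c : Fin 1 → ℝ)
    (hα : ∀ i, ‖α i‖ = 1)
    (hmir : ∀ i, ∀ x ∈ X, x - (2 * (⟪α i, x⟫ - c i)) • α i ∈ X) :
    IsSmallerCover X 5 := by
  have hα0 : α 0 ≠ 0 := fun h => by
    have := hα 0
    rw [h, norm_zero] at this
    exact zero_ne_one this
  have hli : LinearIndependent ℝ α := by
    rw [linearIndependent_unique_iff]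
    exact hα0
  have hfr : Module.finrank ℝ (Submodule.span ℝ (Set.range α))
      + Module.finrank ℝ (Submodule.span ℝ (Set.range α))ᗮ = 4 := by
    rw [Submodule.finrank_add_finrank_orthogonal, finrank_euclideanSpace_fin]
  rw [finrank_span_eq_card hli, Fintype.card_fin] at hfr
  obtain ⟨p, hp⟩ := exists_inner_eq α hli c
  set D := Metric.diam X with hDdef
  set K : Set (EuclideanSpace ℝ (Fin 4)) := (fun x => x - p) '' closure X with hKdef
  have hKc : IsCompact K := hX.isCompact_closure.image (by fun_prop)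
  have hKD : ∀ x ∈ K, ∀ y ∈ K, dist x y ≤ D := by
    rintro _ ⟨x, hx, rfl⟩ _ ⟨y, hy, rfl⟩
    change dist (x - p) (y - p) ≤ D
    rw [dist_sub_right, hDdef, ← Metric.diam_closure X]
    exact Metric.dist_le_diam_of_mem hX.closure hx hy
  have hinv : ∀ i, ∀ v ∈ K, rf (α i) v ∈ K := by
    rintro i _ ⟨x, hx, rfl⟩
    refine ⟨x - (2 * (⟪α i, x⟫ - c i)) • α i, ?_, ?_⟩
    · exact map_mem_closure (f := fun x => x - (2 * (⟪α i, x⟫ - c i)) • α i) (by fun_prop) hx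
        (fun y hy => hmir i y hy)
    · change x - (2 * (⟪α i, x⟫ - c i)) • α i - p = rf (α i) (x - p)
      rw [rf, inner_sub_right, hp i]
      abel
  have hXK : ∀ x ∈ X, x - p ∈ K := fun x hx => ⟨x, subset_closure hx, rfl⟩
  have hXne : X.Nonempty := by
    by_contra h
    rw [Set.not_nonempty_iff_eq_empty] at h
    rw [hDdef, h, Metric.diam_empty] at hD
    exact lt_irrefl _ hD
  have hKne : K.Nonempty := by
    obtain ⟨x, hx⟩ := hXne
    exact ⟨x - p, hXK x hx⟩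
  obtain ⟨z₁, z₂, z₃, hz₁, hz₂, hz₃, hz⟩ :=
    exists_coord_three (Submodule.span ℝ (Set.range α)) (by omega)
  have h30 : 0 < √3 := Real.sqrt_pos.2 (by norm_num)
  have ht0 : 0 < √3 * th := mul_pos h30 hth
  have hsc : Continuous fun x : EuclideanSpace ℝ (Fin 4) => |⟪α 0, x⟫| :=
    (by fun_prop : Continuous fun x : EuclideanSpace ℝ (Fin 4) => ⟪α 0, x⟫).abs
  have hsD : ∀ x ∈ K, 2 * |⟪α 0, x⟫| ≤ D := fun x hx => height_le α hα hinv hD hKD hx
  have hpr : ∀ t : ℝ, 0 < t → ∀ x ∈ K, ∀ y ∈ K,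
      (z₁ x - z₁ y) ^ 2 + (z₂ x - z₂ y) ^ 2 + (z₃ x - z₃ y) ^ 2
        ≤ (rw D t |⟪α 0, x⟫| + rw D t |⟪α 0, y⟫|) ^ 2 := by
    intro t ht x hx y hy
    refine rw_pair hD ht (abs_nonneg _) (hsD x hx) (abs_nonneg _) (hsD y hy) ?_
    rw [← hz]
    exact pair_one α hα hinv hKD hx hy
  obtain ⟨q₁, q₂, q₃, hq₁, hq₂, hq₃, hqd, hO, hT⟩ := Vale.Agent.P052.H515.octa2 hKc hKne
    hz₁ hz₂ hz₃ (rd := fun x => rw D (√3 * th) |⟪α 0, x⟫|) (rd2 := fun x => rw D τ |⟪α 0, x⟫|)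
    (continuous_rw.comp hsc)
    (fun x hx => rw_nonneg hD ht0 (abs_nonneg _) (hsD x hx)) (hpr _ ht0)
    (fun x hx => rw_nonneg hD hτ (abs_nonneg _) (hsD x hx)) (hpr _ hτ)
  obtain ⟨C, hCc, D', hD', hCd⟩ := cover_oneW α hα hKc hinv hD hKD q₁ q₂ q₃ hq₁ hq₂ hq₃
    (fun x _ y _ => by rw [hqd, hz]) hth hτ hμ hO hT hC
  exact smallerCover_of hD p (by simp) C
    (fun x hx => mem_iUnion.1 (hCc (hXK x hx))) hD' hCd

end Vale.Agent.P052.H25
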