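import Mathlib.Analysis.SpecialFunctions.Pow.NNReal

/-!
P052, two free dimensions: the diameter of the pentagons of the weighted hexagon.
-/

namespace Vale.Agent.P052.H25

theorem corner_a {t a b : ℝ} (ht : 0 < t) (ha1 : t / 3 < a) (ha2 : a < t) (hb1 : t / 3 < b) :
    4 / 3 * a ^ 2 < 2 * t * (a + b) - t ^ 2 := by
  nlinarith [mul_pos (sub_pos.2 ha1) (sub_pos.2 ha2), mul_pos ht (sub_pos.2 ha1),
    mul_pos ht (sub_pos.2 hb1), mul_pos ht ht]

theorem corner_b {t a b : ℝ} (ht : 0 < t) (ha1 : t / 3 < a) (ha2 : a < t) (hb1 : t / 3 < b)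
    (hb2 : b < t) : 4 / 3 * (a ^ 2 + a * b / 2 + b ^ 2 / 4) < 2 * t * (a + b) - t ^ 2 := by
  nlinarith [mul_pos (sub_pos.2 ha1) (sub_pos.2 ha2), mul_pos (sub_pos.2 hb1) (sub_pos.2 hb2),
    mul_pos (sub_pos.2 hb1) (sub_pos.2 ha2), mul_pos ht (sub_pos.2 hb1), mul_pos ht ht]

theorem corner_c {t a b : ℝ} (ha1 : t / 3 < a) (ha2 : a < t) (hb1 : t / 3 < b)
    (hb2 : b < t) : 4 / 3 * (3 / 4 * (a ^ 2 + b ^ 2 + a * b)) < 2 * t * (a + b) - t ^ 2 := by
  nlinarith [mul_pos (sub_pos.2 ha1) (sub_pos.2 ha2), mul_pos (sub_pos.2 hb1) (sub_pos.2 hb2),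
    mul_pos (sub_pos.2 hb1) (sub_pos.2 ha2), mul_pos (sub_pos.2 ha1) (sub_pos.2 hb2)]

/-- The comparison of the pentagons of inradii `a` and `b` at the scale `t`. -/
def Good (t a b : ℝ) : Prop :=
  4 / 3 * a ^ 2 < 2 * t * (a + b) - t ^ 2 ∧ 4 / 3 * b ^ 2 < 2 * t * (a + b) - t ^ 2 ∧
  4 / 3 * (a ^ 2 + a * b / 2 + b ^ 2 / 4) < 2 * t * (a + b) - t ^ 2 ∧
  4 / 3 * (b ^ 2 + a * b / 2 + a ^ 2 / 4) < 2 * t * (a + b) - t ^ 2 ∧
  a ^ 2 + a * b + b ^ 2 < 2 * t * (a + b) - t ^ 2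

theorem Good.symm {t a b : ℝ} (h : Good t a b) : Good t b a := by
  obtain ⟨h1, h2, h3, h4, h5⟩ := h
  have e : 2 * t * (b + a) - t ^ 2 = 2 * t * (a + b) - t ^ 2 := by ring
  refine ⟨by rw [e]; exact h2, by rw [e]; exact h1, ?_, ?_, ?_⟩
  · rw [e, mul_comm b a]; exact h4
  · rw [e, mul_comm b a]; exact h3
  · rw [e]; linarith

theorem good_of_bounds {t a b : ℝ} (ht : 0 < t) (ha1 : t / 3 < a) (ha2 : a < t)
    (hb1 : t / 3 < b) (hb2 : b < t) : Good t a b := by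
  refine ⟨corner_a ht ha1 ha2 hb1, ?_, corner_b ht ha1 ha2 hb1 hb2, ?_, ?_⟩
  · rw [add_comm a b]; exact corner_a ht hb1 hb2 ha1
  · rw [add_comm a b, mul_comm a b]; exact corner_b ht hb1 hb2 ha1 ha2
  · have := corner_c ha1 ha2 hb1 hb2
    linarith

/-- `P ≥ N ≥ 0`. -/
theorem opp_aux {t a b P N : ℝ} (ha0 : 0 < a) (hg : Good t a b) (hN : 0 ≤ N) (hPN : N ≤ P)
    (hP : P ≤ a + b / 2) (hN2 : N ≤ b + a / 2) (hS : P - N ≤ a) :
    4 / 3 * (P ^ 2 - P * N + N ^ 2) < 2 * t * (a + b) - t ^ 2 := by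
  rcases le_total N (b / 2) with h | h
  · have h1 : P ^ 2 - P * N + N ^ 2 ≤ a ^ 2 + a * N + N ^ 2 := by
      nlinarith [mul_nonneg (sub_nonneg.2 hS) (show (0 : ℝ) ≤ P + a by linarith)]
    have h2 : a ^ 2 + a * N + N ^ 2 ≤ a ^ 2 + a * b / 2 + b ^ 2 / 4 := by
      nlinarith [mul_nonneg ha0.le (sub_nonneg.2 h)]
    have h3 := hg.2.2.1
    linarith
  · have h1 : P ^ 2 - P * N + N ^ 2 ≤ (a + b / 2) ^ 2 - (a + b / 2) * N + N ^ 2 := by
      nlinarith [mul_nonneg (sub_nonneg.2 hP) (show (0 : ℝ) ≤ P + (a + b / 2) - N by linarith)]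
    have h2 : (a + b / 2) ^ 2 - (a + b / 2) * N + N ^ 2 ≤
        (a + b / 2) ^ 2 + (b - a / 2) * N - (b + a / 2) * b / 2 := by
      nlinarith [mul_nonneg (sub_nonneg.2 h) (sub_nonneg.2 hN2)]
    rcases le_total 0 (b - a / 2) with h4 | h4
    · have h5 : (b - a / 2) * N ≤ (b - a / 2) * (b + a / 2) := mul_le_mul_of_nonneg_left hN2 h4
      have h3 := hg.2.2.2.2
      nlinarith
    · have h5 : (b - a / 2) * N ≤ (b - a / 2) * (b / 2) := mul_le_mul_of_nonpos_left h h4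
      have h3 := hg.2.2.1
      nlinarith

/-- Opposite signs. -/
theorem opp {t a b P N : ℝ} (ha0 : 0 < a) (hb0 : 0 < b) (hg : Good t a b)
    (hP0 : 0 ≤ P) (hN0 : 0 ≤ N)
    (hP : P ≤ a + b / 2) (hN2 : N ≤ b + a / 2) (hS : P - N ≤ a) (hS' : N - P ≤ b) :
    4 / 3 * (P ^ 2 - P * N + N ^ 2) < 2 * t * (a + b) - t ^ 2 := by
  rcases le_total N P with h | h
  · exact opp_aux ha0 hg hN0 h hP hN2 hS
  · have := opp_aux hb0 hg.symm hP0 h hN2 hP hS'
    have e : P ^ 2 - P * N + N ^ 2 = N ^ 2 - N * P + P ^ 2 := by ring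
    rw [e, add_comm a b]
    exact this

/-- Two points of the pentagons of one sector. -/
theorem pent {t a b x y x' y' : ℝ} (ha0 : 0 < a) (hb0 : 0 < b) (hg : Good t a b)
    (hx : x ≤ a) (hy : y ≤ a) (hs : x + y ≤ a) (h1 : 0 ≤ 2 * x + y) (h2 : 0 ≤ x + 2 * y)
    (hx' : x' ≤ b) (hy' : y' ≤ b) (hs' : x' + y' ≤ b) (h1' : 0 ≤ 2 * x' + y')
    (h2' : 0 ≤ x' + 2 * y') :
    4 / 3 * ((x - x') ^ 2 + (x - x') * (y - y') + (y - y') ^ 2) < 2 * t * (a + b) - t ^ 2 := by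
  rcases le_total 0 (x - x') with hX | hX <;> rcases le_total 0 (y - y') with hY | hY
  · have h3 : (x - x') ^ 2 + (x - x') * (y - y') + (y - y') ^ 2 ≤ a ^ 2 := by
      have h5 : 0 ≤ (x - x') * (y - y') := mul_nonneg hX hY
      have h6 : 0 ≤ (x - x') + (y - y') := by linarith
      have h7 : (x - x') + (y - y') ≤ a := by linarith
      have h8 : ((x - x') + (y - y')) ^ 2 ≤ a ^ 2 := pow_le_pow_left₀ h6 h7 2
      have e : ((x - x') + (y - y')) ^ 2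
        = (x - x') ^ 2 + 2 * ((x - x') * (y - y')) + (y - y') ^ 2 := by ring
      linarith
    have h4 := hg.1
    linarith
  · have h3 := opp (P := x - x') (N := -(y - y')) ha0 hb0 hg hX (by linarith)
      (by linarith) (by linarith) (by linarith) (by linarith)
    have e : (x - x') ^ 2 + (x - x') * (y - y') + (y - y') ^ 2
        = (x - x') ^ 2 - (x - x') * -(y - y') + (-(y - y')) ^ 2 := by ring
    rw [e]; exact h3
  · have h3 := opp (P := y - y') (N := -(x - x')) ha0 hb0 hg hY (by linarith)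
      (by linarith) (by linarith) (by linarith) (by linarith)
    have e : (x - x') ^ 2 + (x - x') * (y - y') + (y - y') ^ 2
        = (y - y') ^ 2 - (y - y') * -(x - x') + (-(x - x')) ^ 2 := by ring
    rw [e]; exact h3
  · have h3 : (x - x') ^ 2 + (x - x') * (y - y') + (y - y') ^ 2 ≤ b ^ 2 := by
      have h5 : 0 ≤ (x - x') * (y - y') := mul_nonneg_of_nonpos_of_nonpos hX hY
      have h6 : 0 ≤ (x' - x) + (y' - y) := by linarith
      have h7 : (x' - x) + (y' - y) ≤ b := by linarith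
      have h8 : ((x' - x) + (y' - y)) ^ 2 ≤ b ^ 2 := pow_le_pow_left₀ h6 h7 2
      have e : ((x' - x) + (y' - y)) ^ 2
        = (x - x') ^ 2 + 2 * ((x - x') * (y - y')) + (y - y') ^ 2 := by ring
      linarith
    have h4 := hg.2.1
    linarith

end Vale.Agent.P052.H25
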