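import Vale.Agent.P052.H25.Pent
import Vale.Agent.P052.H25.Hex
import Vale.Agent.P052.H25.Jung
import Vale.Agent.P052.H768.Main

/-!
P052, mirror symmetric sets with two free dimensions.
-/

namespace Vale.Agent.P052.H25

open Metric Set Vale.Agent.P052.H768
open scoped RealInnerProductSpace

/-- A compact set without far pairs has an open neighbourhood without far pairs. -/
theorem exists_open_nofar {V : Type*} [MetricSpace V] {C : Set V} (hC : IsCompact C) {D : ℝ}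
    (hD : ∀ x ∈ C, ∀ y ∈ C, dist x y ≤ D) (hfar : ∀ x ∈ C, ∀ y ∈ C, dist x y ≠ D) :
    ∃ O : Set V, IsOpen O ∧ C ⊆ O ∧ ∀ x ∈ O, ∀ y ∈ O, dist x y ≠ D := by
  rcases C.eq_empty_or_nonempty with he | hne
  · exact ⟨∅, isOpen_empty, by rw [he], fun x hx => absurd hx (by simp)⟩
  obtain ⟨q, hq, hmax⟩ := (hC.prod hC).exists_isMaxOn (hne.prod hne)
    (continuous_dist.continuousOn : ContinuousOn (fun p : V × V => dist p.1 p.2) (C ×ˢ C))
  have h1 : dist q.1 q.2 < D := lt_of_le_of_ne (hD _ hq.1 _ hq.2) (hfar _ hq.1 _ hq.2)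
  set δ : ℝ := (D - dist q.1 q.2) / 3 with hδ
  have hδ0 : 0 < δ := by rw [hδ]; linarith
  refine ⟨thickening δ C, isOpen_thickening, self_subset_thickening hδ0 _, ?_⟩
  intro x hx y hy
  obtain ⟨a, ha, ha'⟩ := mem_thickening_iff.1 hx
  obtain ⟨b, hb, hb'⟩ := mem_thickening_iff.1 hy
  have h3 : dist a b ≤ dist q.1 q.2 := hmax (show (a, b) ∈ C ×ˢ C from ⟨ha, hb⟩)
  have h4 : dist x y ≤ dist x a + dist a b + dist b y := dist_triangle4 x a b y
  rw [dist_comm b y] at h4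
  have h5 : dist x y < D := by
    have : δ + dist q.1 q.2 + δ < D := by rw [hδ]; linarith
    linarith
  exact ne_of_lt h5

variable {V : Type*} [NormedAddCommGroup V] [InnerProductSpace ℝ V] [FiniteDimensional ℝ V]

/-- The inradius of the weighted hexagon. -/
noncomputable def rad (D t : ℝ) (u : V) : ℝ := (D ^ 2 / 2 - ‖u‖ ^ 2) / (2 * t) + t / 4

/-- **Two free dimensions: three further classes**, if far pairs of the remainder are `Good`. -/
theorem cover_corank_two_of_good {k : ℕ} (b : Fin k → V) (hb : ∀ i, ‖b i‖ = 1)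
    (hli : LinearIndependent ℝ b) (hob : ∀ i j, i ≠ j → ⟪b i, b j⟫ ≤ 0) {K : Set V}
    (hK : IsCompact K) (hne : K.Nonempty) (hinv : ∀ i, ∀ v ∈ K, rf (b i) v ∈ K) {D : ℝ}
    (hD0 : 0 < D) (hD : ∀ x ∈ K, ∀ y ∈ K, dist x y ≤ D)
    (q₁ q₂ : V → ℝ) (hq₁ : Continuous q₁) (hq₂ : Continuous q₂)
    (hq : ∀ x y, ‖zc (Submodule.span ℝ (Set.range b)) x
      - zc (Submodule.span ℝ (Set.range b)) y‖ ^ 2 = (q₁ x - q₁ y) ^ 2 + (q₂ x - q₂ y) ^ 2)
    {t : ℝ} (ht0 : 0 < t)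
    (hgood : ∀ x ∈ rem b K, ∀ y ∈ rem b K, dist x y = D →
      Good t (rad D t ((Submodule.span ℝ (Set.range b)).starProjection x))
        (rad D t ((Submodule.span ℝ (Set.range b)).starProjection y))) :
    ∃ C : Fin k ⊕ Fin 3 → Set V, K ⊆ ⋃ i, C i ∧
      ∃ D' < D, ∀ i, ∀ x ∈ C i, ∀ y ∈ C i, dist x y ≤ D' := by
  set U := Submodule.span ℝ (Set.range b) with hU
  set R := rem b K with hR
  have hRc : IsCompact R := rem_compact b hK
  set ρ : V → ℝ := fun x => D ^ 2 / 2 - ‖U.starProjection x‖ ^ 2 with hρ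
  have hρc : Continuous ρ := by
    simp only [hρ]; fun_prop
  obtain ⟨p, hpc, hp0, hpK, hpd⟩ := hexagon hK hne hq₁ hq₂ hρc ht0 (by
    intro x hx y hy
    have h1 := ineq_one b hb hK hinv hD hx hy
    rw [← hU, hq] at h1
    simp only [hρ]
    linarith)
  have hρ0 : ∀ x ∈ K, 0 < ρ x := by
    intro x hx
    have h1 := ineq_two b hb hK hinv hD0 hD hx
    rw [← hU] at h1
    simp only [hρ]
    linarith
  have hrad : ∀ x, ρ x / (2 * t) + t / 4 = rad D t (U.starProjection x) := fun x => rfl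
  have ha0 : ∀ x ∈ K, 0 < rad D t (U.starProjection x) := by
    intro x hx
    rw [← hrad]
    have := hρ0 x hx
    positivity
  -- the closed classes
  set C : Fin 3 → Set V := fun j => {x | x ∈ R ∧ p j x ≤ p (j + 1) x ∧ p j x ≤ p (j + 2) x}
    with hC
  have hCc : ∀ j, IsCompact (C j) := fun j => hRc.inter_right
    (IsClosed.inter (isClosed_le (hpc _) (hpc _)) (isClosed_le (hpc _) (hpc _)))
  have hCK : ∀ j, ∀ x ∈ C j, x ∈ K := fun j x hx => hx.1.1
  have hCD : ∀ j, ∀ x ∈ C j, ∀ y ∈ C j, dist x y ≤ D :=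
    fun j x hx y hy => hD x (hCK j x hx) y (hCK j y hy)
  have hCfar : ∀ j, ∀ x ∈ C j, ∀ y ∈ C j, dist x y ≠ D := by
    intro j x hx y hy hxy
    have hg := hgood x hx.1 y hy.1 hxy
    have e1 := norm_sq_split_sub U x y
    rw [dist_eq_norm] at hxy
    rw [hxy] at e1
    have a1 := rem_acute b hli hob hx.1 hy.1
    rw [← hU] at a1
    rw [hq] at e1
    have hxK := hCK j x hx
    have hyK := hCK j y hy
    have b1 := hp0 j x
    have b2 := hp0 j y
    have k1 := abs_le.1 (hpK j x hxK)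
    have k2 := abs_le.1 (hpK (j + 1) x hxK)
    have k3 := abs_le.1 (hpK (j + 2) x hxK)
    have m1 := abs_le.1 (hpK j y hyK)
    have m2 := abs_le.1 (hpK (j + 1) y hyK)
    have m3 := abs_le.1 (hpK (j + 2) y hyK)
    rw [hrad] at k1 k2 k3 m1 m2 m3
    have x1 := hx.2.1
    have x2 := hx.2.2
    have y1 := hy.2.1
    have y2 := hy.2.2
    have h3 := pent (ha0 x hxK) (ha0 y hyK) hg
      (x := p (j + 1) x) (y := p (j + 2) x) (x' := p (j + 1) y) (y' := p (j + 2) y)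
      k2.2 k3.2 (by linarith [k1.1]) (by linarith) (by linarith)
      m2.2 m3.2 (by linarith [m1.1]) (by linarith) (by linarith)
    rw [← hpd j x y] at h3
    have h4 : 2 * t * (rad D t (U.starProjection x) + rad D t (U.starProjection y)) - t ^ 2
        = ρ x + ρ y := by
      rw [← hrad, ← hrad]
      field_simp
      ring
    rw [h4] at h3
    simp only [hρ] at h3
    linarith
  choose O hO1 hO2 hO3 using fun j => exists_open_nofar (hCc j) (hCD j) (hCfar j)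
  refine core_cover b hb hK hinv hD (κ := Fin 3) O hO1 ?_ ?_
  · intro x hx
    have : ∃ j, x ∈ C j := by
      rcases le_total (p 0 x) (p 1 x) with h1 | h1
      · rcases le_total (p 0 x) (p 2 x) with h2 | h2
        · exact ⟨0, hx, h1, h2⟩
        · exact ⟨2, hx, h2, h2.trans h1⟩
      · rcases le_total (p 1 x) (p 2 x) with h2 | h2
        · exact ⟨1, hx, h2, h1⟩
        · exact ⟨2, hx, h2.trans h1, h2⟩
    obtain ⟨j, hj⟩ := this
    exact ⟨j, hO2 j hj⟩
  · intro j x _ y _ h1 h2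
    exact hO3 j x h1 y h2

/-- **Two free dimensions, at most seven mirrors: three further classes.** -/
theorem cover_corank_two {k : ℕ} (hk : k ≤ 7) (b : Fin k → V) (hb : ∀ i, ‖b i‖ = 1)
    (hli : LinearIndependent ℝ b) (hob : ∀ i j, i ≠ j → ⟪b i, b j⟫ ≤ 0) {K : Set V}
    (hK : IsCompact K) (hne : K.Nonempty) (hinv : ∀ i, ∀ v ∈ K, rf (b i) v ∈ K) {D : ℝ}
    (hD0 : 0 < D) (hD : ∀ x ∈ K, ∀ y ∈ K, dist x y ≤ D)
    (q₁ q₂ : V → ℝ) (hq₁ : Continuous q₁) (hq₂ : Continuous q₂)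
    (hq : ∀ x y, ‖zc (Submodule.span ℝ (Set.range b)) x
      - zc (Submodule.span ℝ (Set.range b)) y‖ ^ 2 = (q₁ x - q₁ y) ^ 2 + (q₂ x - q₂ y) ^ 2) :
    ∃ C : Fin k ⊕ Fin 3 → Set V, K ⊆ ⋃ i, C i ∧
      ∃ D' < D, ∀ i, ∀ x ∈ C i, ∀ y ∈ C i, dist x y ≤ D' := by
  have ht0 : 0 < 3 * D / 5 := by positivity
  refine cover_corank_two_of_good b hb hli hob hK hne hinv hD0 hD q₁ q₂ hq₁ hq₂ hq ht0 ?_
  set U := Submodule.span ℝ (Set.range b) with hU
  have hlo : ∀ x ∈ K, 3 * D / 5 / 3 < rad D (3 * D / 5) (U.starProjection x) := by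
    intro x hx
    have h1 := jung b hb hK hinv hD hx
    rw [← hU] at h1
    have h2 : D ^ 2 / 16 ≤ D ^ 2 / (2 * ((k : ℝ) + 1)) := by
      refine div_le_div_of_nonneg_left (by positivity) (by positivity) ?_
      have : (k : ℝ) ≤ 7 := by exact_mod_cast hk
      linarith
    have h3 : 3 * D / 5 / 12 < (D ^ 2 / 2 - ‖U.starProjection x‖ ^ 2) / (2 * (3 * D / 5)) := by
      rw [lt_div_iff₀ (by positivity)]
      nlinarith [mul_pos hD0 hD0]
    unfold rad
    linarith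
  have hhi : ∀ x, rad D (3 * D / 5) (U.starProjection x) < 3 * D / 5 := by
    intro x
    have h1 := sq_nonneg ‖U.starProjection x‖
    have h2 : (D ^ 2 / 2 - ‖U.starProjection x‖ ^ 2) / (2 * (3 * D / 5))
        < 3 * (3 * D / 5) / 4 := by
      rw [div_lt_iff₀ (by positivity)]
      nlinarith [mul_pos hD0 hD0]
    unfold rad
    linarith
  intro x hx y hy _
  exact good_of_bounds ht0 (hlo x hx.1) (hhi x) (hlo y hy.1) (hhi y)

/-- Coordinates on a two dimensional orthogonal complement. -/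
theorem exists_coord_two (U : Submodule ℝ V) (h2 : Module.finrank ℝ Uᗮ = 2) :
    ∃ q₁ q₂ : V → ℝ, Continuous q₁ ∧ Continuous q₂ ∧
      ∀ x y, ‖zc U x - zc U y‖ ^ 2 = (q₁ x - q₁ y) ^ 2 + (q₂ x - q₂ y) ^ 2 := by
  have w : OrthonormalBasis (Fin 2) ℝ Uᗮ := (stdOrthonormalBasis ℝ Uᗮ).reindex (finCongr h2)
  refine ⟨fun x => ⟪((w 0 : Uᗮ) : V), x⟫, fun x => ⟪((w 1 : Uᗮ) : V), x⟫, by fun_prop,
    by fun_prop, fun x y => ?_⟩
  have key : ∀ (i : Fin 2) (v : V), ⟪((w i : Uᗮ) : V), v⟫ = ⟪((w i : Uᗮ) : V), zc U v⟫ := by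
    intro i v
    nth_rw 1 [← sp_add_zc U v]
    rw [inner_add_right, real_inner_comm,
      (Submodule.mem_orthogonal U _).1 (w i).2 _ (sp_mem U v), zero_add]
  rw [← zc_sub]
  have h3 : ‖(⟨zc U (x - y), zc_mem U (x - y)⟩ : Uᗮ)‖ ^ 2
      = ∑ i, ‖⟪w i, (⟨zc U (x - y), zc_mem U (x - y)⟩ : Uᗮ)⟫‖ ^ 2 :=
    (w.sum_sq_norm_inner_right _).symm
  rw [Fin.sum_univ_two] at h3
  have h4 : ‖(⟨zc U (x - y), zc_mem U (x - y)⟩ : Uᗮ)‖ = ‖zc U (x - y)‖ := rfl
  have h5 : ∀ i, ⟪w i, (⟨zc U (x - y), zc_mem U (x - y)⟩ : Uᗮ)⟫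
      = ⟪((w i : Uᗮ) : V), x⟫ - ⟪((w i : Uᗮ) : V), y⟫ := by
    intro i
    rw [← inner_sub_right, key i (x - y)]
    rfl
  rw [h4, h5, h5, Real.norm_eq_abs, Real.norm_eq_abs, sq_abs, sq_abs] at h3
  exact h3

/-- **Sets of `ℝ^d`, `d ≤ 9`, with `d - 2` independent mirrors.** -/
theorem main_two (d k : ℕ) (hdk : d = k + 2) (hd : d ≤ 9) (X : Set (EuclideanSpace ℝ (Fin d)))
    (hX : Bornology.IsBounded X)
    (hD : 0 < Metric.diam X) (α : Fin k → EuclideanSpace ℝ (Fin d)) (c : Fin k → ℝ)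
    (hα : ∀ i, ‖α i‖ = 1) (hli : LinearIndependent ℝ α)
    (hmir : ∀ i, ∀ x ∈ X, x - (2 * (⟪α i, x⟫ - c i)) • α i ∈ X) :
    IsSmallerCover X (d + 1) := by
  have hfr : Module.finrank ℝ (Submodule.span ℝ (Set.range α))
      + Module.finrank ℝ (Submodule.span ℝ (Set.range α))ᗮ = d := by
    rw [Submodule.finrank_add_finrank_orthogonal, finrank_euclideanSpace_fin]
  rw [finrank_span_eq_card hli, Fintype.card_fin] at hfr
  obtain ⟨p, hp⟩ := exists_inner_eq α hli c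
  set D := Metric.diam X with hDdef
  set K : Set (EuclideanSpace ℝ (Fin d)) := (fun x => x - p) '' closure X with hKdef
  have hKc : IsCompact K := hX.isCompact_closure.image (by fun_prop)
  have hKD : ∀ x ∈ K, ∀ y ∈ K, dist x y ≤ D := by
    rintro _ ⟨x, hx, rfl⟩ _ ⟨y, hy, rfl⟩
    change dist (x - p) (y - p) ≤ D
    rw [dist_sub_right, hDdef, ← Metric.diam_closure X]
    exact Metric.dist_le_diam_of_mem hX.closure hx hy
  set S : Set (EuclideanSpace ℝ (Fin d)) := {a | ‖a‖ = 1 ∧ ∀ v ∈ K, rf a v ∈ K} with hS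
  have hαS : ∀ i, α i ∈ S := by
    intro i
    refine ⟨hα i, ?_⟩
    rintro _ ⟨x, hx, rfl⟩
    refine ⟨x - (2 * (⟪α i, x⟫ - c i)) • α i, ?_, ?_⟩
    · exact map_mem_closure (f := fun x => x - (2 * (⟪α i, x⟫ - c i)) • α i) (by fun_prop) hx
        (fun y hy => hmir i y hy)
    · change x - (2 * (⟪α i, x⟫ - c i)) • α i - p = rf (α i) (x - p)
      rw [rf, inner_sub_right, hp i]
      abel
  obtain ⟨b, hbS, hbli, hbspan, hbob⟩ := exists_obtuse S (isClosed_mirrors hKc.isClosed)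
    (fun a ha => ha.1)
    (fun a ha b hb => ⟨by rw [norm_rf ha.1]; exact hb.1, fun v hv => by
      rw [rf_conj ha.1]
      exact ha.2 _ (hb.2 _ (ha.2 _ hv))⟩) α hαS hli
  have hXK : ∀ x ∈ X, x - p ∈ K := fun x hx => ⟨x, subset_closure hx, rfl⟩
  have hXne : X.Nonempty := by
    by_contra h
    rw [Set.not_nonempty_iff_eq_empty] at h
    rw [hDdef, h, Metric.diam_empty] at hD
    exact lt_irrefl _ hD
  have hKne : K.Nonempty := by
    obtain ⟨x, hx⟩ := hXne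
    exact ⟨x - p, hXK x hx⟩
  obtain ⟨q₁, q₂, hq₁, hq₂, hq⟩ := exists_coord_two (Submodule.span ℝ (Set.range b)) (by
    rw [hbspan]; omega)
  obtain ⟨C, hC, D', hD', hCd⟩ := cover_corank_two (by omega) b (fun i => (hbS i).1) hbli hbob hKc
    hKne (fun i => (hbS i).2) hD hKD q₁ q₂ hq₁ hq₂ hq
  exact smallerCover_of hD p (by simp; omega) C
    (fun x hx => mem_iUnion.1 (hC (hXK x hx))) hD' hCd

end Vale.Agent.P052.H25
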