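import Vale.Agent.P052.H25.OneGlue2
import Vale.Agent.P052.H515.Octa
import Vale.Agent.P052.H638.Cells
import Vale.Agent.P052.H768.Two2

/-!
P052, three free dimensions: an irreducible mirror system together with the point reflection
of its span.
-/

namespace Vale.Agent.P052.H25

open Metric Set Vale.Agent.P052.H768
open scoped RealInnerProductSpace

variable {V : Type*} [NormedAddCommGroup V] [InnerProductSpace ℝ V] [FiniteDimensional ℝ V]

/-- The pair inequality without the mixed term is enough for the weighted radius. -/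
theorem rw_pair' {D t s s' d : ℝ} (hD : 0 < D) (ht : 0 < t)
    (hd : d ≤ D ^ 2 - s ^ 2 - s' ^ 2) : d ≤ (rw D t s + rw D t s') ^ 2 := by
  have h1 : rw D t s + rw D t s' = (D ^ 2 - s ^ 2 - s' ^ 2) / (2 * (t * D)) + t * D / 2 := by
    unfold rw; ring
  have h2 : ((D ^ 2 - s ^ 2 - s' ^ 2) / (2 * (t * D)) + t * D / 2) ^ 2
      = ((D ^ 2 - s ^ 2 - s' ^ 2) / (2 * (t * D)) - t * D / 2) ^ 2
        + (D ^ 2 - s ^ 2 - s' ^ 2) := by
    field_simp
    ring
  rw [h1, h2]
  have h3 := sq_nonneg ((D ^ 2 - s ^ 2 - s' ^ 2) / (2 * (t * D)) - t * D / 2)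
  linarith

/-- **Three free dimensions: four further classes**, if the `u` components have norm at most
`D / 2` and one of them is zero for a far pair of the remainder. -/
theorem cover_three {k : ℕ} (b : Fin k → V) (hb : ∀ i, ‖b i‖ = 1)
    (hli : LinearIndependent ℝ b) (hob : ∀ i j, i ≠ j → ⟪b i, b j⟫ ≤ 0) {K : Set V}
    (hK : IsCompact K) (hne : K.Nonempty) (hinv : ∀ i, ∀ v ∈ K, rf (b i) v ∈ K) {D : ℝ}
    (hD0 : 0 < D) (hD : ∀ x ∈ K, ∀ y ∈ K, dist x y ≤ D)
    (hfin : Module.finrank ℝ (Submodule.span ℝ (Set.range b))ᗮ = 3)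
    (hhalf : ∀ x ∈ K, 2 * ‖(Submodule.span ℝ (Set.range b)).starProjection x‖ ≤ D)
    (hfar : ∀ x ∈ rem b K, ∀ y ∈ rem b K, dist x y = D →
      (Submodule.span ℝ (Set.range b)).starProjection x = 0 ∨
      (Submodule.span ℝ (Set.range b)).starProjection y = 0) :
    ∃ C : Fin k ⊕ Fin 4 → Set V, K ⊆ ⋃ i, C i ∧
      ∃ D' < D, ∀ i, ∀ x ∈ C i, ∀ y ∈ C i, dist x y ≤ D' := by
  set U := Submodule.span ℝ (Set.range b) with hU
  set R := rem b K with hR
  have hRc : IsCompact R := rem_compact b hK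
  set s : V → ℝ := fun x => ‖U.starProjection x‖ with hs
  have hsc : Continuous s := by simp only [hs]; fun_prop
  have hs0 : ∀ x, 0 ≤ s x := fun x => norm_nonneg _
  have hsD : ∀ x ∈ K, 2 * s x ≤ D := hhalf
  have h3 : √3 ^ 2 = 3 := Real.sq_sqrt (by norm_num)
  have h30 : 0 < √3 := Real.sqrt_pos.2 (by norm_num)
  obtain ⟨th, τ, μ, Ce, hth, hτ, hμ, hC⟩ : ∃ (th τ μ : ℝ) (Ce : Fin 4 → ℝ → ℝ → ℝ → Prop),
      0 < th ∧ 0 < τ ∧ 0 < μ ∧ CellsW th τ μ Ce :=
    ⟨9 / 16, 21 / 25, 1 / 2000, _, by norm_num, by norm_num, by norm_num, H638.cells⟩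
  have ht0 : 0 < √3 * th := mul_pos h30 hth
  obtain ⟨z₁, z₂, z₃, hz₁, hz₂, hz₃, hz⟩ := exists_coord_three U hfin
  have hpr : ∀ t : ℝ, 0 < t → ∀ x ∈ K, ∀ y ∈ K,
      (z₁ x - z₁ y) ^ 2 + (z₂ x - z₂ y) ^ 2 + (z₃ x - z₃ y) ^ 2
        ≤ (rw D t (s x) + rw D t (s y)) ^ 2 := by
    intro t ht x hx y hy
    refine rw_pair' hD0 ht ?_
    rw [← hz]
    have := ineq_one b hb hK hinv hD hx hy
    rw [← hU] at this
    simp only [hs]
    linarith
  obtain ⟨q₁, q₂, q₃, hq₁, hq₂, hq₃, hqd, hO, hT⟩ := Vale.Agent.P052.H515.octa2 hK hne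
    hz₁ hz₂ hz₃ (rd := fun x => rw D (√3 * th) (s x)) (rd2 := fun x => rw D τ (s x))
    (continuous_rw.comp hsc)
    (fun x hx => rw_nonneg hD0 ht0 (hs0 x) (hsD x hx)) (hpr _ ht0)
    (fun x hx => rw_nonneg hD0 hτ (hs0 x) (hsD x hx)) (hpr _ hτ)
  -- normalised coordinates
  set ρ : V → ℝ := fun x => 1 / 2 - s x ^ 2 / D ^ 2 with hρ
  have hρlo : ∀ x ∈ K, 1 / 4 ≤ ρ x := by
    intro x hx
    have h1 := hsD x hx
    have h2 : s x ^ 2 / D ^ 2 ≤ 1 / 4 := by
      rw [div_le_iff₀ (by positivity)]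
      nlinarith [hs0 x]
    simp only [hρ]; linarith
  have hρhi : ∀ x, ρ x ≤ 1 / 2 := by
    intro x
    have : 0 ≤ s x ^ 2 / D ^ 2 := by positivity
    simp only [hρ]; linarith
  have hrwO : ∀ x, √3 * rw D (√3 * th) (s x) / D = ρ x / (2 * th) + 3 * th / 4 := by
    intro x
    simp only [rw, hρ]
    field_simp
    rw [h3]
    ring
  have hrwT : ∀ x, rw D τ (s x) / D = ρ x / (2 * τ) + τ / 4 := by
    intro x
    simp only [rw, hρ]
    field_simp
  have hIn : ∀ x ∈ K, InW th τ (ρ x) (q₁ x / D) (q₂ x / D) (q₃ x / D) := by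
    intro x hx
    refine ⟨?_, ?_, ?_, ?_⟩
    · rw [← hrwO, abs_div, abs_div, abs_div, abs_of_pos hD0, ← add_div, ← add_div]
      exact div_le_div_of_nonneg_right (hO x hx) hD0.le
    · rw [← hrwT]; exact div_le_div_of_nonneg_right (hT x hx).1 hD0.le
    · rw [← hrwT]; exact div_le_div_of_nonneg_right (hT x hx).2.1 hD0.le
    · rw [← hrwT]; exact div_le_div_of_nonneg_right (hT x hx).2.2 hD0.le
  have hscale : ∀ x y : V, (q₁ x - q₁ y) ^ 2 + (q₂ x - q₂ y) ^ 2 + (q₃ x - q₃ y) ^ 2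
      = D ^ 2 * ((q₁ x / D - q₁ y / D) ^ 2 + (q₂ x / D - q₂ y / D) ^ 2
        + (q₃ x / D - q₃ y / D) ^ 2) := by
    intro x y
    field_simp
  -- the classes
  set C : Fin 4 → Set V := fun j => {x | x ∈ R ∧ Ce j (q₁ x / D) (q₂ x / D) (q₃ x / D)}
    with hCd
  have hCc : ∀ j, IsCompact (C j) := by
    intro j
    refine hRc.inter_right ?_
    exact (hC.closed j).preimage
      ((hq₁.div_const D).prodMk ((hq₂.div_const D).prodMk (hq₃.div_const D)))
  have hCK : ∀ j, ∀ x ∈ C j, x ∈ K := fun j x hx => hx.1.1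
  have hCD : ∀ j, ∀ x ∈ C j, ∀ y ∈ C j, dist x y ≤ D :=
    fun j x hx y hy => hD x (hCK j x hx) y (hCK j y hy)
  -- a far pair, one of the two in the common intersection of the mirrors
  have key : ∀ j, ∀ x ∈ C j, ∀ y ∈ C j, U.starProjection y = 0 → ‖x - y‖ = D → False := by
    intro j x hx y hy hy0 hxy
    have h1 := norm_sq_split_sub U x y
    have hsy : s y = 0 := by simp only [hs]; rw [hy0, norm_zero]
    rw [hxy, hy0, norm_zero, inner_zero_right, hz, ← hqd, hscale] at h1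
    have hρy : ρ y = 1 / 2 := by simp only [hρ]; rw [hsy]; simp
    have hy' := hIn y hy.1.1
    rw [hρy] at hy'
    have h2 := hC.pair j (ρ x) _ _ _ _ _ _ (hρlo x hx.1.1) (hρhi x) hx.2 hy.2
      (hIn x hx.1.1) hy'
    have h4 := mul_le_mul_of_nonneg_left h2 (sq_nonneg D)
    have h5 : D ^ 2 * (ρ x + 1 / 2 - μ) = D ^ 2 - s x ^ 2 - D ^ 2 * μ := by
      simp only [hρ]
      field_simp
      ring
    rw [h5] at h4
    have h6 : 0 < D ^ 2 * μ := by positivity
    have h7 : ‖U.starProjection x‖ ^ 2 = s x ^ 2 := rfl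
    rw [h7] at h1
    nlinarith
  have hCfar : ∀ j, ∀ x ∈ C j, ∀ y ∈ C j, dist x y ≠ D := by
    intro j x hx y hy hxy
    rcases hfar x hx.1 y hy.1 hxy with h | h
    · rw [dist_comm, dist_eq_norm] at hxy
      exact key j y hy x hx h hxy
    · rw [dist_eq_norm] at hxy
      exact key j x hx y hy h hxy
  choose O hO1 hO2 hO3 using fun j => exists_open_nofar (hCc j) (hCD j) (hCfar j)
  refine core_cover b hb hK hinv hD (κ := Fin 4) O hO1 ?_ ?_
  · intro x hx
    obtain ⟨j, hj⟩ := hC.cover (q₁ x / D) (q₂ x / D) (q₃ x / D)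
    exact ⟨j, hO2 j ⟨hx, hj⟩⟩
  · intro j x _ y _ h1 h2
    exact hO3 j x h1 y h2

/-- **Sets of `ℝ^d` with `d - 3` independent mirrors whose normals do not split**, and
whose points have distance at most `diam X / 2` from the common intersection of the mirrors. -/
theorem main_three_irred {d k : ℕ} {X : Set (EuclideanSpace ℝ (Fin d))} (hdk : d = k + 3)
    (hX : Bornology.IsBounded X)
    (hD : 0 < Metric.diam X) (α : Fin k → EuclideanSpace ℝ (Fin d)) (c : Fin k → ℝ)
    (hα : ∀ i, ‖α i‖ = 1) (hli : LinearIndependent ℝ α)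
    (hmir : ∀ i, ∀ x ∈ X, x - (2 * (⟪α i, x⟫ - c i)) • α i ∈ X)
    (hirr : ∀ J : Set (Fin k), J.Nonempty → J ≠ Set.univ → ∃ i ∈ J, ∃ j ∉ J, ⟪α i, α j⟫ ≠ 0)
    (p : EuclideanSpace ℝ (Fin d)) (hp : ∀ i, ⟪α i, p⟫ = c i)
    (hdiam : ∀ x ∈ X,
      2 * ‖(Submodule.span ℝ (Set.range α)).starProjection (x - p)‖ ≤ Metric.diam X) :
    IsSmallerCover X (d + 1) := by
  set κ : Fin k → Unit := fun _ => () with hκdef
  have hκ : IsBlocks α κ := by
    refine ⟨fun i j h => absurd rfl h, fun J hJ i hi j _ => ?_⟩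
    by_contra hj
    obtain ⟨i', hi', j', hj', h⟩ := hirr J ⟨i, hi⟩ (fun h => hj (by rw [h]; exact mem_univ j))
    exact h (hJ i' hi' j' hj')
  have hzero : ∀ z, (blk α κ ()).starProjection z = 0 →
      (Submodule.span ℝ (Set.range α)).starProjection z = 0 := by
    intro z hz
    refine eq_zero_of_mem_span α (sp_mem _ z) fun i => ?_
    have hi : α i ∈ Submodule.span ℝ (Set.range α) := Submodule.subset_span ⟨i, rfl⟩
    rw [inner_sp _ hi, ← inner_sp _ (mem_blk α κ (rfl : κ i = ())), hz, inner_zero_right]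
  have hfr : Module.finrank ℝ (Submodule.span ℝ (Set.range α))
      + Module.finrank ℝ (Submodule.span ℝ (Set.range α))ᗮ = d := by
    rw [Submodule.finrank_add_finrank_orthogonal, finrank_euclideanSpace_fin]
  rw [finrank_span_eq_card hli, Fintype.card_fin] at hfr
  have hKc := tr_compact hX p
  have hKD := tr_dist hX p
  obtain ⟨b, hb1, hbinv, hbli, hbspan, hbob⟩ := exists_mirrors hX α c hα hli hmir p hp
  have hXK : ∀ x ∈ X, x - p ∈ tr X p := fun x hx => ⟨x, subset_closure hx, rfl⟩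
  have hXne : X.Nonempty := by
    by_contra h
    rw [Set.not_nonempty_iff_eq_empty] at h
    rw [h, Metric.diam_empty] at hD
    exact lt_irrefl _ hD
  have hKne : (tr X p).Nonempty := by
    obtain ⟨x, hx⟩ := hXne
    exact ⟨x - p, hXK x hx⟩
  obtain ⟨C, hC, D', hD', hCd⟩ := cover_three b hb1 hbli hbob hKc
    hKne hbinv hD hKD (by rw [hbspan]; omega) (by
      rw [hbspan]
      rintro _ ⟨x, hx, rfl⟩
      refine closure_minimal (s := X) (t := {x | 2 * ‖(Submodule.span ℝ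
        (Set.range α)).starProjection (x - p)‖ ≤ Metric.diam X}) ?_ ?_ hx
      · intro y hy
        exact hdiam y hy
      · exact isClosed_le (by fun_prop) continuous_const) (by
      intro x hx y hy hxy
      rw [hbspan]
      by_contra hcon
      push Not at hcon
      have h4 := ineq_blocks α hα κ hκ (fun i => tr_rf (hp i) (hmir i)) hKc hKD hx.1 hy.1
        (s := ()) (fun h => hcon.1 (hzero x h)) (fun h => hcon.2 (hzero y h))
      have h5 := rem_acute b hbli hbob hx hy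
      have h6 := norm_sq_split_sub (Submodule.span ℝ (Set.range α)) x y
      rw [hbspan] at h5
      rw [dist_eq_norm] at hxy
      rw [hxy] at h6
      linarith)
  exact smallerCover_of hD p (by simp; omega) C
    (fun x hx => mem_iUnion.1 (hC (hXK x hx))) hD' hCd

/-- **Sets of `ℝ^d` with `d - 3` independent mirrors whose normals do not split**, with a symmetry
which is `-1` on the span of the normals. -/
theorem main_three {d k : ℕ} {X : Set (EuclideanSpace ℝ (Fin d))} (hdk : d ≤ k + 3)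
    (hX : Bornology.IsBounded X)
    (hD : 0 < Metric.diam X) (α : Fin k → EuclideanSpace ℝ (Fin d)) (c : Fin k → ℝ)
    (hα : ∀ i, ‖α i‖ = 1) (hli : LinearIndependent ℝ α)
    (hmir : ∀ i, ∀ x ∈ X, x - (2 * (⟪α i, x⟫ - c i)) • α i ∈ X)
    (hirr : ∀ J : Set (Fin k), J.Nonempty → J ≠ Set.univ → ∃ i ∈ J, ∃ j ∉ J, ⟪α i, α j⟫ ≠ 0)
    (p : EuclideanSpace ℝ (Fin d)) (hp : ∀ i, ⟪α i, p⟫ = c i)
    (g : EuclideanSpace ℝ (Fin d) ≃ₗᵢ[ℝ] EuclideanSpace ℝ (Fin d))
    (hg : ∀ u ∈ Submodule.span ℝ (Set.range α), g u = -u) (hgX : ∀ x ∈ X, p + g (x - p) ∈ X) :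
    IsSmallerCover X (d + 1) := by
  by_cases h1 : d ≤ k + 1
  · exact H768.main hX hD α c hα hli hmir (Or.inl h1)
  by_cases h2 : d = k + 2
  · exact H768.main_two_irred h2 hX hD α c hα hli hmir hirr
  refine main_three_irred (by omega) hX hD α c hα hli hmir hirr p hp ?_
  intro x hx
  set U := Submodule.span ℝ (Set.range α) with hU
  have hgZ : ∀ z ∈ Uᗮ, g z ∈ Uᗮ := by
    intro z hz
    rw [Submodule.mem_orthogonal]
    intro u hu
    have h3 : ⟪g (-u), g z⟫ = ⟪-u, z⟫ := g.inner_map_map _ _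
    have h4 : ⟪u, z⟫ = (0 : ℝ) := (Submodule.mem_orthogonal U z).1 hz u hu
    rw [hg (-u) (Submodule.neg_mem _ hu), neg_neg, inner_neg_left, h4, neg_zero] at h3
    exact h3
  have hgsp : ∀ y, U.starProjection (g y) = -(U.starProjection y) := by
    intro y
    refine Submodule.eq_starProjection_of_mem_orthogonal (Submodule.neg_mem _ (sp_mem U y)) ?_
    have h5 : g y - -(U.starProjection y) = g (zc U y) := by
      rw [← hg _ (sp_mem U y), ← map_sub]; rfl
    rw [h5]
    exact hgZ _ (zc_mem U y)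
  have h6 : U.starProjection (x - (p + g (x - p))) = (2 : ℝ) • U.starProjection (x - p) := by
    have e : x - (p + g (x - p)) = (x - p) - g (x - p) := by abel
    rw [e, map_sub, hgsp, sub_neg_eq_add, two_smul]
  have h7 : ‖U.starProjection (x - (p + g (x - p)))‖ ≤ ‖x - (p + g (x - p))‖ :=
    Submodule.norm_starProjection_apply_le U _
  rw [h6, norm_smul, Real.norm_eq_abs, abs_two] at h7
  have h8 : ‖x - (p + g (x - p))‖ ≤ Metric.diam X := by
    rw [← dist_eq_norm]
    exact Metric.dist_le_diam_of_mem hX hx (hgX x hx)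
  linarith

end Vale.Agent.P052.H25
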