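import Vale.Agent.P052.H768.Two2
import Vale.Agent.P052.H25.OneFinal

namespace Vale.Agent.P052.H25

open scoped RealInnerProductSpace

/-- Sets of `ℝ^d`, `d ≤ 4`, with at least one mirror. -/
theorem main_four (d k : ℕ) (hd : d ≤ 4) (hk : 1 ≤ k) (X : Set (EuclideanSpace ℝ (Fin d)))
    (hX : Bornology.IsBounded X)
    (hD : 0 < Metric.diam X) (α : Fin k → EuclideanSpace ℝ (Fin d)) (c : Fin k → ℝ)
    (hα : ∀ i, ‖α i‖ = 1) (hli : LinearIndependent ℝ α)
    (hmir : ∀ i, ∀ x ∈ X, x - (2 * (⟪α i, x⟫ - c i)) • α i ∈ X) :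
    IsSmallerCover X (d + 1) := by
  rcases le_or_gt d (k + 1) with h | h
  · exact H768.main hX hD α c hα hli hmir (Or.inl h)
  · by_cases h2 : d = k + 2
    · exact H768.main_two_small h2 (by omega) hX hD α c hα hli hmir
    · obtain rfl : k = 1 := by omega
      obtain rfl : d = 4 := by omega
      exact one_mirror X hX hD α c hα hmir

end Vale.Agent.P052.H25
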